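import Vale.Agent.P227.Basic
import Vale.Agent.P047.PrekopaLeindler

/-!
Areas of planar symmetric convex sets: adding a horizontal segment, and the Bonnesen inequality for
two sets with the same central horizontal chord.
-/

noncomputable section

namespace Vale.Agent.P227

open Set Matrix MeasureTheory Pointwise
open scoped ENNReal

variable {X Y : Set (Fin 2 → ℝ)}

/-- The horizontal slice at height `y`. -/
def hsl (S : Set (Fin 2 → ℝ)) (y : ℝ) : Set ℝ := {x | ![x, y] ∈ S}

theorem continuous_vec2 : Continuous fun p : ℝ × ℝ => ![p.1, p.2] := by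
  refine continuous_pi fun i => ?_
  fin_cases i <;> simp <;> fun_prop

theorem measurableSet_pairs {S : Set (Fin 2 → ℝ)} (hS : MeasurableSet S) :
    MeasurableSet {p : ℝ × ℝ | ![p.1, p.2] ∈ S} :=
  continuous_vec2.measurable hS

theorem volume_eq_lintegral {S : Set (Fin 2 → ℝ)} (hS : MeasurableSet S) :
    volume S = ∫⁻ y, volume (hsl S y) := by
  have h := (volume_preserving_finTwoArrow ℝ).symm
  rw [← h.measure_preimage hS.nullMeasurableSet, Measure.volume_eq_prod,
    Measure.prod_apply_symm (h.measurable hS)]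
  rfl

theorem measurable_hsl {S : Set (Fin 2 → ℝ)} (hS : MeasurableSet S) :
    Measurable fun y => volume (hsl S y) :=
  measurable_measure_prodMk_right (measurableSet_pairs hS)

theorem hsl_convex {S : Set (Fin 2 → ℝ)} (hS : Convex ℝ S) (y : ℝ) : Convex ℝ (hsl S y) := by
  intro a ha b hb s t hs ht hst
  have := hS ha hb hs ht hst
  show ![s • a + t • b, y] ∈ S
  convert this using 1
  ext i
  fin_cases i <;> simp [← add_mul, hst]

theorem hsl_compact {S : Set (Fin 2 → ℝ)} (hS : IsCompact S) (y : ℝ) : IsCompact (hsl S y) := by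
  have hc : IsClosed (hsl S y) :=
    hS.isClosed.preimage (continuous_vec2.comp (by fun_prop : Continuous fun x : ℝ => (x, y)))
  exact (hS.image (continuous_apply 0)).of_isClosed_subset hc
    fun x hx => ⟨![x, y], hx, by simp⟩

theorem hsl_eq_Icc {S : Set (Fin 2 → ℝ)} (hS : IsCompact S) (hc : Convex ℝ S) {y : ℝ}
    (hne : (hsl S y).Nonempty) :
    hsl S y = Icc (sInf (hsl S y)) (sSup (hsl S y)) :=
  eq_Icc_of_connected_compact ⟨hne, (hsl_convex hc y).isPreconnected⟩ (hsl_compact hS y)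

theorem vec2_eta (x : Fin 2 → ℝ) : ![x 0, x 1] = x := by ext i; fin_cases i <;> simp

theorem supp_e1 (hX : Body X) {y : ℝ} (hne : (hsl X y).Nonempty) :
    y ∈ Icc (-supp X ![0, 1]) (supp X ![0, 1]) := by
  obtain ⟨x, hx⟩ := hne
  have := hX.abs_le_supp hx ![0, 1]
  rw [abs_le] at this
  simpa [dotProduct, Fin.sum_univ_two] using this

theorem hsl_ne (hX : Body X) {y : ℝ} (hy : y ∈ Icc (-supp X ![0, 1]) (supp X ![0, 1])) :
    (hsl X y).Nonempty := by
  obtain ⟨p, hp, hpu⟩ := hX.exists_supp_eq ![0, 1]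
  have hp1 : p 1 = supp X ![0, 1] := by simpa [dotProduct, Fin.sum_univ_two] using hpu
  have hconn : IsPreconnected ((fun x : Fin 2 → ℝ => x 1) '' X) :=
    hX.conv.isPreconnected.image _ (continuous_apply 1).continuousOn
  obtain ⟨x, hx, hxy⟩ := hconn.Icc_subset ⟨-p, hX.symm p hp, by simp [hp1]⟩ ⟨p, hp, hp1⟩ hy
  refine ⟨x 0, ?_⟩
  show ![x 0, y] ∈ X
  rw [← hxy, vec2_eta]
  exact hx

/-- The horizontal unit segment. -/
def seg0 : Set (Fin 2 → ℝ) := (fun t : ℝ => ![t, 0]) '' Icc (-1) 1

theorem seg0_compact : IsCompact seg0 :=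
  isCompact_Icc.image (continuous_vec2.comp (by fun_prop : Continuous fun x : ℝ => (x, (0:ℝ))))

theorem hsl_add_seg0 (X : Set (Fin 2 → ℝ)) (y : ℝ) :
    hsl (X + seg0) y = hsl X y + Icc (-1) 1 := by
  ext x
  simp only [hsl, mem_ofPred_eq, mem_add, seg0, mem_image]
  constructor
  · rintro ⟨a, ha, _, ⟨t, ht, rfl⟩, h⟩
    have h0 := congrFun h 0
    have h1 := congrFun h 1
    simp at h0 h1
    refine ⟨a 0, ?_, t, ht, h0⟩
    rw [← h1, vec2_eta]
    exact ha
  · rintro ⟨a, ha, t, ht, rfl⟩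
    exact ⟨![a, y], ha, ![t, 0], ⟨t, ht, rfl⟩, by ext i; fin_cases i <;> simp⟩

/-- Adding the unit horizontal segment adds four times the height. -/
theorem volume_add_seg0 (hX : Body X) :
    volume (X + seg0) = volume X + ENNReal.ofReal (4 * supp X ![0, 1]) := by
  rw [volume_eq_lintegral (hX.comp.add seg0_compact).measurableSet,
    volume_eq_lintegral hX.comp.measurableSet]
  set b := supp X ![0, 1]
  have hpt : ∀ y, volume (hsl (X + seg0) y) =
      volume (hsl X y) + (Icc (-b) b).indicator (fun _ => 2) y := by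
    intro y
    rw [hsl_add_seg0]
    by_cases hy : y ∈ Icc (-b) b
    · have hne := hsl_ne hX hy
      have he := hsl_eq_Icc hX.comp hX.conv hne
      set l := sInf (hsl X y)
      set r := sSup (hsl X y)
      have hlr : l ≤ r := by rw [he] at hne; exact nonempty_Icc.1 hne
      rw [he, Icc_add_Icc hlr (by norm_num), indicator_of_mem hy, Real.volume_Icc, Real.volume_Icc,
        ← ENNReal.ofReal_ofNat, ← ENNReal.ofReal_add (by linarith) (by norm_num)]
      congr 1
      ring
    · have hemp : hsl X y = ∅ := not_nonempty_iff_eq_empty.1 fun h => hy (supp_e1 hX h)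
      simp [hemp, indicator_of_notMem hy]
  simp only [hpt]
  rw [lintegral_add_left (measurable_hsl hX.comp.measurableSet),
    lintegral_indicator measurableSet_Icc, setLIntegral_const, Real.volume_Icc,
    ← ENNReal.ofReal_ofNat, ← ENNReal.ofReal_mul (by norm_num)]
  congr 2
  ring

theorem body_hsl_half (hX : Body X) {r : ℝ} (hmax : ∀ t, ![t, 0] ∈ X → t ≤ r) {y a c : ℝ}
    (ha : a ∈ hsl X y) (hc : c ∈ hsl X y) : c - a ≤ 2 * r := by
  have h := hX.conv hc (hX.symm _ ha) (by norm_num : (0:ℝ) ≤ 1/2) (by norm_num : (0:ℝ) ≤ 1/2)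
    (by norm_num)
  have e : (1/2 : ℝ) • ![c, y] + (1/2 : ℝ) • (-![a, y]) = ![(c - a) / 2, 0] := by
    ext i; fin_cases i <;> simp <;> ring
  rw [e] at h
  linarith [hmax _ h]

/-- Bonnesen: two sets with the same central horizontal chord. -/
theorem two_mul_add_le_volume_add (hX : Body X) (hY : Body Y) {r : ℝ}
    (hrX : ![r, 0] ∈ X) (hrY : ![r, 0] ∈ Y) (hmX : ∀ t, ![t, 0] ∈ X → t ≤ r)
    (hmY : ∀ t, ![t, 0] ∈ Y → t ≤ r) :
    2 * (volume X + volume Y) ≤ volume (X + Y) := by
  have hr : 0 ≤ r := hmX 0 (by convert hX.zero_mem using 1; ext i; fin_cases i <;> simp)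
  set F := fun y => (volume (hsl X y)).toReal with hF
  set G := fun y => (volume (hsl Y y)).toReal with hG
  set H := fun y => (volume (hsl (X + Y) y)).toReal with hH
  have hfin : ∀ {S : Set (Fin 2 → ℝ)}, IsCompact S → ∀ y, volume (hsl S y) ≠ ⊤ := fun hS y =>
    (hsl_compact hS y).measure_lt_top.ne
  have hXY : IsCompact (X + Y) := hX.comp.add hY.comp
  have hvol : ∀ {S : Set (Fin 2 → ℝ)}, IsCompact S →
      volume S = ∫⁻ y, ENNReal.ofReal (volume (hsl S y)).toReal := fun hS => by
    rw [volume_eq_lintegral hS.measurableSet]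
    exact lintegral_congr fun y => (ENNReal.ofReal_toReal (hfin hS y)).symm
  have hlen : ∀ {S : Set (Fin 2 → ℝ)}, Body S → ∀ y, (hsl S y).Nonempty →
      ∃ l u, l ≤ u ∧ hsl S y = Icc l u ∧ (volume (hsl S y)).toReal = u - l := by
    intro S hS y hne
    have he := hsl_eq_Icc hS.comp hS.conv hne
    have hle : sInf (hsl S y) ≤ sSup (hsl S y) := by rw [he] at hne; exact nonempty_Icc.1 hne
    refine ⟨_, _, hle, he, ?_⟩
    conv_lhs => rw [he, Real.volume_Icc, ENNReal.toReal_ofReal (sub_nonneg.2 hle)]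
  have hle2r : ∀ {S : Set (Fin 2 → ℝ)}, Body S → (∀ t, ![t, 0] ∈ S → t ≤ r) →
      ∀ y, (volume (hsl S y)).toReal ≤ 2 * r := by
    intro S hS hm y
    rcases eq_empty_or_nonempty (hsl S y) with h | h
    · simp [h, hr]
    · obtain ⟨l, u, hlu, he, hv⟩ := hlen hS y h
      rw [hv]
      refine body_hsl_half hS hm (y := y) (a := l) (c := u) ?_ ?_ <;> rw [he]
      · exact left_mem_Icc.2 hlu
      · exact right_mem_Icc.2 hlu
  have hzero : ∀ {S : Set (Fin 2 → ℝ)}, Body S → ![r, 0] ∈ S →
      2 * r ≤ (volume (hsl S 0)).toReal := by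
    intro S hS hrS
    have hneg : -r ∈ hsl S 0 := by
      have := hS.symm _ hrS
      simpa [hsl] using this
    obtain ⟨l, u, _, he, hv⟩ := hlen hS 0 ⟨r, hrS⟩
    have h1 : r ∈ Icc l u := he ▸ hrS
    have h2 : -r ∈ Icc l u := he ▸ hneg
    rw [hv]
    linarith [h1.2, h2.1]
  have hadd : ∀ y z, 0 < F y → 0 < G z → F y + G z ≤ H (y + z) := by
    intro y z hy hz
    have hne1 : (hsl X y).Nonempty := nonempty_iff_ne_empty.2 fun h => by simp [hF, h] at hy
    have hne2 : (hsl Y z).Nonempty := nonempty_iff_ne_empty.2 fun h => by simp [hG, h] at hz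
    obtain ⟨l, u, hlu, he, hv⟩ := hlen hX y hne1
    obtain ⟨l', u', hlu', he', hv'⟩ := hlen hY z hne2
    have hsub : Icc (l + l') (u + u') ⊆ hsl (X + Y) (y + z) := by
      rw [← Icc_add_Icc hlu hlu', ← he, ← he']
      rintro _ ⟨a, ha, b, hb, rfl⟩
      exact ⟨![a, y], ha, ![b, z], hb, by ext i; fin_cases i <;> simp⟩
    have := ENNReal.toReal_mono (hfin hXY _) (measure_mono (μ := volume) hsub)
    rw [Real.volume_Icc, ENNReal.toReal_ofReal (by linarith)] at this
    simp only [hF, hG, hH, hv, hv']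
    linarith
  have hmF : Measurable F := (measurable_hsl hX.comp.measurableSet).ennreal_toReal
  have hmG : Measurable G := (measurable_hsl hY.comp.measurableSet).ennreal_toReal
  have hmH : Measurable H := (measurable_hsl hXY.measurableSet).ennreal_toReal
  have key : (∫⁻ y, ENNReal.ofReal (F y)) + (∫⁻ y, ENNReal.ofReal (G y)) ≤
      2 * ∫⁻ y, ENNReal.ofReal (H (2 * y) / 2) := by
    rw [lintegral_eq_lintegral_meas_lt volume (.of_forall fun y => ENNReal.toReal_nonneg)
        hmF.aemeasurable,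
      lintegral_eq_lintegral_meas_lt volume (.of_forall fun y => ENNReal.toReal_nonneg)
        hmG.aemeasurable,
      lintegral_eq_lintegral_meas_lt volume
        (.of_forall fun y => div_nonneg ENNReal.toReal_nonneg (by norm_num))
        ((hmH.comp (measurable_const_mul 2)).div_const 2).aemeasurable,
      ← lintegral_const_mul' _ _ ENNReal.ofNat_ne_top]
    refine (le_lintegral_add _ _).trans ?_
    refine lintegral_mono_ae ((ae_restrict_mem measurableSet_Ioi).mono fun t ht => ?_)
    have ht : 0 < t := ht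
    rcases lt_or_ge t (2 * r) with ht' | ht'
    · refine Vale.Agent.P047.bm_midpoint (hmF measurableSet_Ioi)
        ⟨0, lt_of_lt_of_le ht' (hzero hX hrX)⟩ (hmG measurableSet_Ioi)
        ⟨0, lt_of_lt_of_le ht' (hzero hY hrY)⟩ fun x hx y hy => ?_
      have hx : t < F x := hx
      have hy : t < G y := hy
      show t < H (2 * ((x + y) / 2)) / 2
      have := hadd x y (ht.trans hx) (ht.trans hy)
      rw [show 2 * ((x + y) / 2) = x + y by ring]
      linarith
    · have e1 : {x | t < F x} = ∅ := eq_empty_of_forall_notMem fun x hx =>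
        absurd (lt_of_lt_of_le hx (hle2r hX hmX x)) (not_lt.2 ht')
      have e2 : {x | t < G x} = ∅ := eq_empty_of_forall_notMem fun x hx =>
        absurd (lt_of_lt_of_le hx (hle2r hY hmY x)) (not_lt.2 ht')
      simp only [hF, hG] at e1 e2 ⊢
      simp [e1, e2]
  have hscale : (∫⁻ y, ENNReal.ofReal (H y)) = 4 * ∫⁻ y, ENNReal.ofReal (H (2 * y) / 2) := by
    have h1 := lintegral_map (μ := (volume : Measure ℝ))
      (f := fun y => ENNReal.ofReal (H y / 2)) (g := fun y => (2:ℝ) * y)
      ((hmH.div_const 2).ennreal_ofReal) (measurable_const_mul 2)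
    rw [← h1, Real.map_volume_mul_left two_ne_zero, lintegral_smul_measure, smul_eq_mul,
      ← mul_assoc, abs_of_pos (by norm_num)]
    have e : (4 : ℝ≥0∞) * ENNReal.ofReal (2:ℝ)⁻¹ = ENNReal.ofReal 2 := by
      rw [← ENNReal.ofReal_ofNat, ← ENNReal.ofReal_mul (by norm_num)]
      norm_num
    rw [e, ← lintegral_const_mul' _ _ ENNReal.ofReal_ne_top]
    refine lintegral_congr fun y => ?_
    rw [← ENNReal.ofReal_mul (by norm_num)]
    congr 1
    ring
  rw [hvol hX.comp, hvol hY.comp, hvol hXY]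
  calc 2 * ((∫⁻ y, ENNReal.ofReal (F y)) + ∫⁻ y, ENNReal.ofReal (G y))
      ≤ 2 * (2 * ∫⁻ y, ENNReal.ofReal (H (2 * y) / 2)) := by gcongr
    _ = ∫⁻ y, ENNReal.ofReal (H y) := by rw [hscale, ← mul_assoc]; norm_num

end Vale.Agent.P227
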