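import Mathlib

/-!
Symmetric convex bodies in `Fin n → ℝ`, their support functions and the geometric mean body.
-/

noncomputable section

namespace Vale.Agent.P227

open Set Matrix MeasureTheory

variable {n : ℕ}

/-- The support function. -/
def supp (K : Set (Fin n → ℝ)) (u : Fin n → ℝ) : ℝ := sSup ((fun x => u ⬝ᵥ x) '' K)

/-- The body cut out by the geometric mean of the two support functions. -/
def geo (K L : Set (Fin n → ℝ)) : Set (Fin n → ℝ) :=
  {x | ∀ u, (u ⬝ᵥ x) ^ 2 ≤ supp K u * supp L u}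

/-- A nonempty compact convex symmetric set. -/
structure Body (K : Set (Fin n → ℝ)) : Prop where
  comp : IsCompact K
  conv : Convex ℝ K
  symm : ∀ x ∈ K, -x ∈ K
  ne : K.Nonempty

variable {K L : Set (Fin n → ℝ)}

theorem continuous_dot (u : Fin n → ℝ) : Continuous fun x : Fin n → ℝ => u ⬝ᵥ x := by
  unfold dotProduct; fun_prop

theorem Body.zero_mem (h : Body K) : (0 : Fin n → ℝ) ∈ K := by
  obtain ⟨x, hx⟩ := h.ne
  have := h.conv hx (h.symm x hx) (by norm_num : (0:ℝ) ≤ 1/2) (by norm_num : (0:ℝ) ≤ 1/2)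
    (by norm_num)
  simpa using this

theorem Body.bddAbove (h : Body K) (u : Fin n → ℝ) : BddAbove ((fun x => u ⬝ᵥ x) '' K) :=
  (h.comp.image (continuous_dot u)).bddAbove

theorem Body.le_supp (h : Body K) {x : Fin n → ℝ} (hx : x ∈ K) (u : Fin n → ℝ) :
    u ⬝ᵥ x ≤ supp K u :=
  le_csSup (h.bddAbove u) (mem_image_of_mem _ hx)

theorem Body.abs_le_supp (h : Body K) {x : Fin n → ℝ} (hx : x ∈ K) (u : Fin n → ℝ) :
    |u ⬝ᵥ x| ≤ supp K u := by
  refine abs_le'.2 ⟨h.le_supp hx u, ?_⟩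
  have := h.le_supp (h.symm x hx) u
  rwa [dotProduct_neg] at this

theorem Body.exists_supp_eq (h : Body K) (u : Fin n → ℝ) : ∃ x ∈ K, u ⬝ᵥ x = supp K u := by
  obtain ⟨x, hx, hxu⟩ := (h.comp.image (continuous_dot u)).sSup_mem (h.ne.image _)
  exact ⟨x, hx, hxu⟩

theorem Body.supp_nonneg (h : Body K) (u : Fin n → ℝ) : 0 ≤ supp K u :=
  (abs_nonneg _).trans (h.abs_le_supp h.zero_mem u)

theorem Body.supp_le (h : Body K) {u : Fin n → ℝ} {c : ℝ} (hc : ∀ x ∈ K, u ⬝ᵥ x ≤ c) :
    supp K u ≤ c :=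
  csSup_le (h.ne.image _) (by rintro _ ⟨x, hx, rfl⟩; exact hc x hx)

theorem Body.continuous_supp (h : Body K) : Continuous (supp K) := by
  have := h.comp.continuous_sSup (f := fun (u x : Fin n → ℝ) => u ⬝ᵥ x)
    (by unfold dotProduct; fun_prop)
  exact this

theorem Body.supp_smul (h : Body K) {c : ℝ} (hc : 0 ≤ c) (u : Fin n → ℝ) :
    supp K (c • u) = c * supp K u := by
  refine le_antisymm (h.supp_le fun x hx => ?_) ?_
  · rw [smul_dotProduct, smul_eq_mul]
    exact mul_le_mul_of_nonneg_left (h.le_supp hx u) hc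
  · obtain ⟨x, hx, hxu⟩ := h.exists_supp_eq u
    rw [← hxu, ← smul_eq_mul, ← smul_dotProduct]
    exact h.le_supp hx _

theorem Body.supp_neg (h : Body K) (u : Fin n → ℝ) : supp K (-u) = supp K u := by
  refine le_antisymm (h.supp_le fun x hx => ?_) (h.supp_le fun x hx => ?_)
  · simpa using h.le_supp (h.symm x hx) u
  · simpa using h.le_supp (h.symm x hx) (-u)

theorem Body.supp_pos (h : Body K) (h0 : K ∈ nhds (0 : Fin n → ℝ)) {u : Fin n → ℝ} (hu : u ≠ 0) :
    0 < supp K u := by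
  obtain ⟨t, ht, htK⟩ : ∃ t : ℝ, 0 < t ∧ t • u ∈ K := by
    have hc : Continuous fun t : ℝ => t • u := by fun_prop
    have := (hc.tendsto' 0 0 (zero_smul ℝ u)).eventually_mem h0
    obtain ⟨t, ht, ht'⟩ := ((this.filter_mono nhdsWithin_le_nhds).and
      (self_mem_nhdsWithin (s := Ioi (0 : ℝ)))).exists
    exact ⟨t, ht', ht⟩
  refine lt_of_lt_of_le ?_ (h.le_supp htK u)
  rw [dotProduct_smul, smul_eq_mul]
  refine mul_pos ht ?_
  obtain ⟨i, hi⟩ := Function.ne_iff.1 hu
  exact lt_of_lt_of_le (mul_self_pos.2 hi)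
    (Finset.single_le_sum (f := fun i => u i * u i) (fun i _ => mul_self_nonneg _)
      (Finset.mem_univ i))

theorem Body.smul (h : Body K) (c : ℝ) : Body ((fun x => c • x) '' K) where
  comp := h.comp.image (continuous_const_smul c)
  conv := h.conv.smul c
  symm := by rintro _ ⟨x, hx, rfl⟩; exact ⟨-x, h.symm x hx, smul_neg _ _⟩
  ne := h.ne.image _

theorem Body.supp_image_smul (h : Body K) {c : ℝ} (hc : 0 ≤ c) (u : Fin n → ℝ) :
    supp ((fun x => c • x) '' K) u = c * supp K u := by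
  refine le_antisymm ((h.smul c).supp_le ?_) ?_
  · rintro _ ⟨x, hx, rfl⟩
    rw [dotProduct_smul, smul_eq_mul]
    exact mul_le_mul_of_nonneg_left (h.le_supp hx u) hc
  · obtain ⟨x, hx, hxu⟩ := h.exists_supp_eq u
    rw [← hxu, ← smul_eq_mul, ← dotProduct_smul]
    exact (h.smul c).le_supp (mem_image_of_mem _ hx) u

theorem geo_closed (K L : Set (Fin n → ℝ)) : IsClosed (geo K L) := by
  have e : geo K L = ⋂ u, {x | (u ⬝ᵥ x) ^ 2 ≤ supp K u * supp L u} := by ext x; simp [geo]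
  rw [e]
  exact isClosed_iInter fun u => isClosed_le ((continuous_dot u).pow 2) continuous_const

end Vale.Agent.P227
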