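import Vale.Agent.P227.Zonogon

/-!
The planar logarithmic Brunn–Minkowski inequality at the midpoint.

For finitely many directions the quadratic area form of zonogons, maximised on a simplex, gives a
zonogon `W` with `h_W ≤ sqrt (h_K h_L)` on the normals, with equality on the normals of its edges.
The Bonnesen inequality `2 (|P| + s ^ 2 |W|) ≤ |P + s W|` at each edge gives
`|K| |L| ≤ |W| ^ 2`.
-/

noncomputable section

namespace Vale.Agent.P227

open Set Matrix MeasureTheory Pointwise Filter Topology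
open scoped ENNReal

/-- A maximiser of a quadratic form on a simplex. -/
theorem exists_balanced {N : ℕ} (M : Fin N → Fin N → ℝ) (f : Fin N → ℝ)
    (hsym : ∀ i j, M i j = M j i) (hM : ∀ i j, 0 ≤ M i j) (hf : ∀ i, 0 < f i)
    (hne : ∃ i j, 0 < M i j) :
    ∃ a : Fin N → ℝ, (∀ i, 0 ≤ a i) ∧ (∀ j, ∑ k, M j k * a k ≤ f j) ∧
      (∀ i, 0 < a i → ∑ k, M i k * a k = f i) ∧ 0 < ∑ i, ∑ j, M i j * a i * a j := by
  obtain ⟨i0, j0, h0⟩ := hne
  set D : Set (Fin N → ℝ) := {c | (∀ i, 0 ≤ c i) ∧ ∑ i, c i * f i = 1} with hD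
  set φ : (Fin N → ℝ) → ℝ := fun c => ∑ i, ∑ j, M i j * c i * c j with hφ
  have hDc : IsCompact D := by
    refine (isCompact_univ_pi fun i => isCompact_Icc (a := (0:ℝ)) (b := 1 / f i)).of_isClosed_subset
      ?_ fun c hc i _ => ⟨hc.1 i, ?_⟩
    · simp only [hD, Set.ofPred_and, Set.ofPred_forall]
      exact (isClosed_iInter fun i => isClosed_le continuous_const (continuous_apply i)).inter
        (isClosed_eq (by fun_prop) continuous_const)
    · rw [le_div_iff₀ (hf i)]
      calc c i * f i ≤ ∑ k, c k * f k := Finset.single_le_sum (f := fun k => c k * f k)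
            (fun k _ => mul_nonneg (hc.1 k) (hf k).le) (Finset.mem_univ i)
        _ = 1 := hc.2
  set S := f i0 + f j0 with hS
  have hS0 : 0 < S := add_pos (hf i0) (hf j0)
  set c0 : Fin N → ℝ := fun k => ((if k = i0 then 1 else 0) + if k = j0 then 1 else 0) / S with hc0
  have hc0n : ∀ k, 0 ≤ c0 k := fun k => by rw [hc0]; positivity
  have hc0D : c0 ∈ D := by
    refine ⟨hc0n, ?_⟩
    simp only [hc0, div_mul_eq_mul_div, ← Finset.sum_div, add_mul, ite_mul, one_mul, zero_mul,
      Finset.sum_add_distrib, Finset.sum_ite_eq', Finset.mem_univ, if_true]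
    exact div_self hS0.ne'
  obtain ⟨c, hcD, hmax⟩ := hDc.exists_isMaxOn ⟨c0, hc0D⟩ (f := φ) (by fun_prop)
  have hpos : 0 < φ c := by
    refine lt_of_lt_of_le ?_ (hmax hc0D)
    have hi : 0 < c0 i0 := by simp only [hc0, if_true]; positivity
    have hj : 0 < c0 j0 := by simp only [hc0, if_true]; positivity
    refine Finset.sum_pos' (fun i _ => Finset.sum_nonneg fun j _ => ?_)
      ⟨i0, Finset.mem_univ _, Finset.sum_pos' (fun j _ => ?_) ⟨j0, Finset.mem_univ _, ?_⟩⟩
    · exact mul_nonneg (mul_nonneg (hM i j) (hc0n i)) (hc0n j)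
    · exact mul_nonneg (mul_nonneg (hM i0 j) (hc0n i0)) (hc0n j)
    · positivity
  set G : Fin N → ℝ := fun i => ∑ k, M i k * c k with hG
  have hmove : ∀ i, 0 < c i → ∀ j, G j / f j ≤ G i / f i := by
    intro i hi j
    by_contra hlt
    push Not at hlt
    set e : Fin N → ℝ := fun k => (if k = j then 1 / f j else 0) - (if k = i then 1 / f i else 0)
      with he
    have heG : ∑ k, e k * G k = G j / f j - G i / f i := by
      simp only [he, sub_mul, ite_mul, zero_mul, Finset.sum_sub_distrib, Finset.sum_ite_eq',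
        Finset.mem_univ, if_true]
      ring
    set L := ∑ k, e k * G k with hL
    have hL0 : 0 < L := by linarith
    set q := φ e with hq
    set t := min (c i * f i) (L / (|q| + 1)) with ht
    have ht0 : 0 < t := lt_min (mul_pos hi (hf i)) (div_pos hL0 (by positivity))
    have hD' : (fun k => c k + t * e k) ∈ D := by
      refine ⟨fun k => ?_, ?_⟩
      · have h1 : t / f i ≤ c i := (div_le_iff₀ (hf i)).2 (min_le_left _ _)
        have h2 : 0 ≤ t * (if k = j then 1 / f j else 0) := by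
          have := (hf j).le
          positivity
        simp only [he, mul_sub]
        rcases eq_or_ne k i with rfl | hk
        · rw [if_pos rfl, mul_one_div]
          linarith
        · rw [if_neg hk, mul_zero, sub_zero]
          linarith [hcD.1 k]
      · have hef : ∑ k, e k * f k = 0 := by
          simp only [he, sub_mul, ite_mul, zero_mul, Finset.sum_sub_distrib, Finset.sum_ite_eq',
            Finset.mem_univ, if_true, one_div_mul_cancel (hf j).ne', one_div_mul_cancel (hf i).ne',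
            sub_self]
        simp only [add_mul, mul_assoc, Finset.sum_add_distrib, ← Finset.mul_sum, hef, hcD.2]
        ring
    have hexp : φ (fun k => c k + t * e k) = φ c + 2 * t * L + t ^ 2 * q := by
      have h1 : ∑ a, ∑ b, M a b * e a * c b = L := by
        simp only [hL, hG, Finset.mul_sum]
        exact Finset.sum_congr rfl fun a _ => Finset.sum_congr rfl fun b _ => by ring
      have h2 : ∑ a, ∑ b, M a b * c a * e b = L := by
        rw [← h1, Finset.sum_comm]
        exact Finset.sum_congr rfl fun a _ => Finset.sum_congr rfl fun b _ => by rw [hsym b a]; ring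
      have h3 : ∀ a b, M a b * (c a + t * e a) * (c b + t * e b) = M a b * c a * c b +
          t * (M a b * e a * c b) + t * (M a b * c a * e b) + t ^ 2 * (M a b * e a * e b) :=
        fun a b => by ring
      simp only [hφ, hq, h3, Finset.sum_add_distrib, ← Finset.mul_sum, h1, h2]
      ring
    have hle := hmax hD'
    rw [mem_ofPred_eq, hexp] at hle
    have h4 : t * (|q| + 1) ≤ L := (le_div_iff₀ (by positivity)).1 (min_le_right _ _)
    nlinarith [abs_nonneg q, neg_abs_le q]
  obtain ⟨i1, hi1⟩ : ∃ i, 0 < c i := by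
    by_contra h
    push Not at h
    have : c = 0 := funext fun i => le_antisymm (h i) (hcD.1 i)
    simp [hφ, this] at hpos
  set μ := G i1 / f i1 with hμ
  have hGle : ∀ j, G j ≤ μ * f j := fun j => (div_le_iff₀ (hf j)).1 (hmove i1 hi1 j)
  have hGeq : ∀ i, 0 < c i → G i = μ * f i := fun i hi =>
    (div_eq_iff (hf i).ne').1 (le_antisymm (hmove i1 hi1 i) (hmove i hi i1))
  have hφμ : φ c = μ := by
    have h1 : φ c = ∑ i, c i * G i := by
      simp only [hφ, hG, Finset.mul_sum]
      exact Finset.sum_congr rfl fun a _ => Finset.sum_congr rfl fun b _ => by ring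
    rw [h1, Finset.sum_congr rfl (fun i _ => show c i * G i = μ * (c i * f i) by
      rcases (hcD.1 i).eq_or_lt with h | h
      · rw [← h]; ring
      · rw [hGeq i h]; ring), ← Finset.mul_sum, hcD.2, mul_one]
  have hμ0 : 0 < μ := hφμ ▸ hpos
  have hsum : ∀ j, ∑ k, M j k * (c k / μ) = G j / μ := fun j => by
    simp only [hG, ← mul_div_assoc, ← Finset.sum_div]
  refine ⟨fun i => c i / μ, fun i => div_nonneg (hcD.1 i) hμ0.le, fun j => ?_, fun i hi => ?_, ?_⟩
  · rw [hsum, div_le_iff₀ hμ0]; linarith [hGle j]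
  · rw [hsum, div_eq_iff hμ0.ne', hGeq i (by
      by_contra h
      push Not at h
      exact absurd hi (not_lt.2 (div_nonpos_of_nonpos_of_nonneg h hμ0.le)))]
    ring
  · have e : ∑ i, ∑ j, M i j * (c i / μ) * (c j / μ) = φ c / μ ^ 2 := by
      simp only [hφ, Finset.sum_div]
      exact Finset.sum_congr rfl fun a _ => Finset.sum_congr rfl fun b _ => by ring
    rw [e]; positivity

/-- The finitely many constraints. -/
def cons {N : ℕ} (K L : Set (Fin 2 → ℝ)) (d : Fin N → Fin 2 → ℝ) : Set (Fin 2 → ℝ) :=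
  {x | ∀ j, (nrm (d j) ⬝ᵥ x) ^ 2 ≤ supp K (nrm (d j)) * supp L (nrm (d j))}

theorem mul_le_sq_of_edges {N : ℕ} {P P' : Set (Fin 2 → ℝ)} (hP : Body P) (hP' : Body P')
    (hP0 : P ∈ nhds 0) (a : Fin N → Fin 2 → ℝ)
    (hW : volume (∑ i, seg (a i)) ≠ 0)
    (hrel : ∀ i, supp P (nrm (a i)) * supp P' (nrm (a i)) =
      supp (∑ j, seg (a j)) (nrm (a i)) ^ 2) :
    (volume P).toReal * ∑ i, supp P' (nrm (a i)) ≤
      (2 * ∑ i, ∑ j, |nrm (a i) ⬝ᵥ a j|) * ∑ i, supp P (nrm (a i)) := by
  set W : Set (Fin 2 → ℝ) := ∑ i, seg (a i) with hWd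
  set Q := 2 * ∑ i, ∑ j, |nrm (a i) ⬝ᵥ a j| with hQ
  set H := ∑ i, supp P (nrm (a i)) with hH
  have hQ0 : 0 ≤ Q := by rw [hQ]; positivity
  have hWb : Body W := body_sum _ _
  have hsum : ∑ i, supp W (nrm (a i)) = Q / 2 := by
    simp only [hWd, supp_sum, hQ]; ring
  have key : ∀ i, (volume P).toReal * supp P' (nrm (a i)) + supp P (nrm (a i)) * Q ≤
      4 * supp W (nrm (a i)) * H := by
    intro i
    set p := supp P (nrm (a i)) with hp
    set w := supp W (nrm (a i)) with hw
    rcases eq_or_ne (a i) 0 with h0 | h0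
    · have hz : nrm (a i) = (0 : ℝ) • (0 : Fin 2 → ℝ) := by
        rw [h0]; ext k; fin_cases k <;> simp [nrm]
      rw [hp, hw, hz, hP.supp_smul le_rfl, hP'.supp_smul le_rfl, hWb.supp_smul le_rfl]
      simp
    have hn := nrm_ne_zero h0
    have hw0 : 0 < w := hWb.supp_pos (hWb.mem_nhds hW) hn
    have hp0 : 0 < p := hP.supp_pos hP0 hn
    set s := p / w with hs
    have hs0 : 0 < s := div_pos hp0 hw0
    have hsW : (fun x : Fin 2 → ℝ => s • x) '' W = ∑ j, seg (s • a j) := image_smul_sum _ _ _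
    have hvol : volume (∑ j, seg (s • a j)) = ENNReal.ofReal (s ^ 2 * Q) := by
      rw [volume_sum]
      congr 1
      simp only [hQ, nrm_smul, smul_dotProduct, dotProduct_smul, smul_eq_mul, abs_mul,
        abs_of_pos hs0, Finset.mul_sum]
      exact Finset.sum_congr rfl fun _ _ => Finset.sum_congr rfl fun _ _ => by ring
    have hnz : volume (∑ j, seg (s • a j)) ≠ 0 := by
      rw [hvol, Ne, ENNReal.ofReal_eq_zero, not_le]
      refine mul_pos (by positivity) (lt_of_le_of_ne hQ0 fun h => hW ?_)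
      rw [volume_sum, ← hQ, ← h, ENNReal.ofReal_zero]
    have hbs := body_sum (Finset.univ : Finset (Fin N)) fun j => s • a j
    have h := two_mul_add_le hP hbs hP0 (hbs.mem_nhds hnz) hn (by
      rw [← hsW, hWb.supp_image_smul hs0.le, hs, ← hw, div_mul_cancel₀ _ hw0.ne'])
    have hpnn : 0 ≤ ∑ j, supp P (nrm (s • a j)) := Finset.sum_nonneg fun _ _ => hP.supp_nonneg _
    have hqnn : 0 ≤ ∑ i, ∑ j, |nrm (s • a i) ⬝ᵥ (s • a j)| := by positivity
    rw [hvol, volume_add_sum hP] at h
    have hfinP : volume P ≠ ⊤ := hP.comp.measure_lt_top.ne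
    have h' := ENNReal.toReal_mono (ENNReal.add_ne_top.2 ⟨hfinP, ENNReal.ofReal_ne_top⟩) h
    rw [ENNReal.toReal_mul, ENNReal.toReal_add hfinP ENNReal.ofReal_ne_top,
      ENNReal.toReal_add hfinP ENNReal.ofReal_ne_top, ENNReal.toReal_ofReal (by positivity),
      ENNReal.toReal_ofReal (by linarith), ENNReal.toReal_ofNat] at h'
    have e1 : ∑ j, supp P (nrm (s • a j)) = s * H := by
      simp only [nrm_smul, hP.supp_smul hs0.le, hH, Finset.mul_sum]
    have e2 : 2 * ∑ i, ∑ j, |nrm (s • a i) ⬝ᵥ (s • a j)| = s ^ 2 * Q := by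
      simp only [hQ, nrm_smul, smul_dotProduct, dotProduct_smul, smul_eq_mul, abs_mul,
        abs_of_pos hs0, Finset.mul_sum]
      exact Finset.sum_congr rfl fun _ _ => Finset.sum_congr rfl fun _ _ => by ring
    rw [e1, e2] at h'
    have hp' : supp P' (nrm (a i)) = w ^ 2 / p := by
      rw [eq_div_iff hp0.ne', mul_comm]; exact hrel i
    rw [hp']
    have h2 := mul_le_mul_of_nonneg_left h' (div_nonneg (sq_nonneg w) hp0.le)
    have e3 : w ^ 2 / p * (s ^ 2 * Q) = p * Q := by rw [hs]; field_simp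
    have e4 : w ^ 2 / p * (4 * (s * H)) = 4 * w * H := by rw [hs]; field_simp
    nlinarith [h2, e3, e4]
  have hk := Finset.sum_le_sum (s := Finset.univ) fun i _ => key i
  rw [Finset.sum_add_distrib, ← Finset.mul_sum, ← Finset.sum_mul] at hk
  have : ∑ i, 4 * supp W (nrm (a i)) * H = 2 * Q * H := by
    rw [← Finset.sum_mul, ← Finset.mul_sum, hsum]; ring
  rw [this] at hk
  nlinarith [hk]

/-- The inequality for finitely many directions. -/
theorem finite_midpoint {N : ℕ} {K L : Set (Fin 2 → ℝ)} (hK : Body K) (hL : Body L)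
    (hK0 : K ∈ nhds 0) (hL0 : L ∈ nhds 0) (d : Fin N → Fin 2 → ℝ) (hd : ∀ i, d i ≠ 0)
    (hne : ∃ i j, nrm (d i) ⬝ᵥ d j ≠ 0) :
    volume K * volume L ≤ volume (cons K L d) ^ 2 := by
  set f : Fin N → ℝ := fun i => Real.sqrt (supp K (nrm (d i)) * supp L (nrm (d i))) with hf
  have hf0 : ∀ i, 0 < f i := fun i => Real.sqrt_pos.2
    (mul_pos (hK.supp_pos hK0 (nrm_ne_zero (hd i))) (hL.supp_pos hL0 (nrm_ne_zero (hd i))))
  obtain ⟨c, hc0, hcle, hceq, hcpos⟩ := exists_balanced (fun i j => |nrm (d i) ⬝ᵥ d j|) f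
    (fun i j => abs_nrm_dot_comm _ _) (fun i j => abs_nonneg _) hf0
    (let ⟨i, j, h⟩ := hne; ⟨i, j, abs_pos.2 h⟩)
  set a : Fin N → Fin 2 → ℝ := fun i => c i • d i with ha
  have hW : ∀ u, supp (∑ j, seg (a j)) u = ∑ j, |u ⬝ᵥ d j| * c j := by
    intro u
    rw [supp_sum]
    refine Finset.sum_congr rfl fun j _ => ?_
    rw [ha, dotProduct_smul, smul_eq_mul, abs_mul, abs_of_nonneg (hc0 j), mul_comm]
  have hsub : ∑ j, seg (a j) ⊆ cons K L d := by
    intro x hx j
    have h1 := (body_sum Finset.univ a).abs_le_supp hx (nrm (d j))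
    rw [hW] at h1
    have h2 : |nrm (d j) ⬝ᵥ x| ≤ f j := h1.trans (hcle j)
    calc (nrm (d j) ⬝ᵥ x) ^ 2 = |nrm (d j) ⬝ᵥ x| ^ 2 := (sq_abs _).symm
      _ ≤ f j ^ 2 := pow_le_pow_left₀ (abs_nonneg _) h2 2
      _ = _ := Real.sq_sqrt (mul_nonneg (hK.supp_nonneg _) (hL.supp_nonneg _))
  set Q := 2 * ∑ i, ∑ j, |nrm (a i) ⬝ᵥ a j| with hQ
  have hQ0 : 0 < Q := by
    have e : Q = 2 * ∑ i, ∑ j, |nrm (d i) ⬝ᵥ d j| * c i * c j := by
      rw [hQ]
      congr 1
      refine Finset.sum_congr rfl fun i _ => Finset.sum_congr rfl fun j _ => ?_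
      rw [ha, nrm_smul, smul_dotProduct, dotProduct_smul, smul_eq_mul, smul_eq_mul, abs_mul,
        abs_mul, abs_of_nonneg (hc0 i), abs_of_nonneg (hc0 j)]
      ring
    rw [e]; linarith
  have hWv : volume (∑ j, seg (a j)) ≠ 0 := by
    rw [volume_sum, ← hQ, Ne, ENNReal.ofReal_eq_zero, not_le]; exact hQ0
  have hrel : ∀ i, supp K (nrm (a i)) * supp L (nrm (a i)) =
      supp (∑ j, seg (a j)) (nrm (a i)) ^ 2 := by
    intro i
    rw [show a i = c i • d i from rfl, nrm_smul, hK.supp_smul (hc0 i), hL.supp_smul (hc0 i),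
      (body_sum _ _).supp_smul (hc0 i)]
    rcases (hc0 i).eq_or_lt with h | h
    · rw [← h]; ring
    · rw [hW, hceq i h, mul_pow, hf,
        Real.sq_sqrt (mul_nonneg (hK.supp_nonneg _) (hL.supp_nonneg _))]
      ring
  have h1 := mul_le_sq_of_edges hK hL hK0 a hWv hrel
  have h2 := mul_le_sq_of_edges hL hK hL0 a hWv (fun i => by rw [mul_comm]; exact hrel i)
  rw [← hQ] at h1 h2
  set H := ∑ i, supp K (nrm (a i))
  set H' := ∑ i, supp L (nrm (a i))
  have hHH : 0 < H ∧ 0 < H' := by
    obtain ⟨i, hi⟩ : ∃ i, a i ≠ 0 := by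
      by_contra h
      push Not at h
      simp [hQ, h] at hQ0
    exact ⟨Finset.sum_pos' (fun j _ => hK.supp_nonneg _)
        ⟨i, Finset.mem_univ _, hK.supp_pos hK0 (nrm_ne_zero hi)⟩,
      Finset.sum_pos' (fun j _ => hL.supp_nonneg _)
        ⟨i, Finset.mem_univ _, hL.supp_pos hL0 (nrm_ne_zero hi)⟩⟩
  have h3 : (volume K).toReal * (volume L).toReal ≤ Q ^ 2 := by
    have := mul_le_mul h1 h2 (mul_nonneg ENNReal.toReal_nonneg hHH.1.le)
      (mul_nonneg hQ0.le hHH.1.le)
    nlinarith [mul_pos hHH.1 hHH.2]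
  calc volume K * volume L = ENNReal.ofReal ((volume K).toReal * (volume L).toReal) := by
        rw [ENNReal.ofReal_mul ENNReal.toReal_nonneg, ENNReal.ofReal_toReal
          hK.comp.measure_lt_top.ne, ENNReal.ofReal_toReal hL.comp.measure_lt_top.ne]
    _ ≤ ENNReal.ofReal (Q ^ 2) := ENNReal.ofReal_le_ofReal h3
    _ = volume (∑ j, seg (a j)) ^ 2 := by rw [volume_sum, ← hQ, ENNReal.ofReal_pow hQ0.le]
    _ ≤ _ := pow_le_pow_left₀ zero_le (measure_mono hsub) 2

/-- Planar logarithmic Brunn–Minkowski at the midpoint. -/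
theorem planar_midpoint {K L : Set (Fin 2 → ℝ)} (hK : Body K) (hL : Body L) :
    volume K * volume L ≤ volume (geo K L) ^ 2 := by
  rcases eq_or_ne (volume K) 0 with h | hKv
  · simp [h]
  rcases eq_or_ne (volume L) 0 with h | hLv
  · simp [h]
  have hK0 := hK.mem_nhds hKv
  have hL0 := hL.mem_nhds hLv
  set u := TopologicalSpace.denseSeq (Fin 2 → ℝ) with hu
  set back : (Fin 2 → ℝ) → Fin 2 → ℝ := fun v => ![v 1, -v 0] with hb
  have hback : ∀ v, nrm (back v) = v := fun v => by ext i; fin_cases i <;> simp [nrm, hb]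
  set D : ℕ → Fin 2 → ℝ := fun k => match k with
    | 0 => ![1, 0]
    | 1 => ![0, 1]
    | k + 2 => if u k = 0 then ![1, 0] else back (u k) with hD
  have hD0 : ∀ k, D k ≠ 0 := by
    intro k
    rcases k with _ | _ | k
    · intro h; simpa [hD] using congrFun h 0
    · intro h; simpa [hD] using congrFun h 1
    · simp only [hD]
      split_ifs with hk
      · intro h; simpa using congrFun h 0
      · intro h
        refine hk ?_
        rw [← hback (u k), h]
        ext i; fin_cases i <;> simp [nrm]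
  set C : ℕ → Set (Fin 2 → ℝ) := fun N => cons K L fun i : Fin (N + 2) => D i with hC
  have hfin : ∀ N, volume K * volume L ≤ volume (C N) ^ 2 := fun N =>
    finite_midpoint hK hL hK0 hL0 _ (fun i => hD0 i)
      ⟨⟨0, by omega⟩, ⟨1, by omega⟩, by simp [hD, nrm, dotProduct, Fin.sum_univ_two]⟩
  have hclosed : ∀ N, IsClosed (C N) := fun N => by
    simp only [hC, cons, Set.ofPred_forall]
    exact isClosed_iInter fun j => isClosed_le ((continuous_dot _).pow 2) continuous_const
  have hanti : Antitone C := fun i j hij x hx k => hx ⟨k, by omega⟩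
  have hbdd : IsCompact (C 0) := by
    refine (isCompact_univ_pi fun i => isCompact_Icc
      (a := -(Real.sqrt (supp K (nrm ![1, 0]) * supp L (nrm ![1, 0])) +
        Real.sqrt (supp K (nrm ![0, 1]) * supp L (nrm ![0, 1]))))
      (b := Real.sqrt (supp K (nrm ![1, 0]) * supp L (nrm ![1, 0])) +
        Real.sqrt (supp K (nrm ![0, 1]) * supp L (nrm ![0, 1])))).of_isClosed_subset (hclosed 0)
      fun x hx i _ => ?_
    have h0 := Real.abs_le_sqrt (hx ⟨0, by omega⟩)
    have h1 := Real.abs_le_sqrt (hx ⟨1, by omega⟩)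
    simp only [hD, nrm_dot, abs_le] at h0 h1
    have p0 := Real.sqrt_nonneg (supp K (nrm ![1, 0]) * supp L (nrm ![1, 0]))
    have p1 := Real.sqrt_nonneg (supp K (nrm ![0, 1]) * supp L (nrm ![0, 1]))
    simp at h0 h1
    fin_cases i <;> constructor <;> simp <;> linarith
  have hsub : ⋂ N, C N ⊆ geo K L := by
    intro x hx v
    have hcl : IsClosed {v | (v ⬝ᵥ x) ^ 2 ≤ supp K v * supp L v} :=
      isClosed_le (by unfold dotProduct; fun_prop) (hK.continuous_supp.mul hL.continuous_supp)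
    refine hcl.closure_subset_iff.2 ?_ ((TopologicalSpace.denseRange_denseSeq (Fin 2 → ℝ)).closure_eq ▸ mem_univ v)
    rintro _ ⟨k, rfl⟩
    by_cases hk : u k = 0
    · show (u k ⬝ᵥ x) ^ 2 ≤ supp K (u k) * supp L (u k)
      rw [hk, zero_dotProduct]
      simpa using mul_nonneg (hK.supp_nonneg 0) (hL.supp_nonneg 0)
    · have h2 := mem_iInter.1 hx (k + 1) ⟨k + 2, by omega⟩
      simp only [hD, if_neg hk, hback] at h2
      exact h2
  have htend : Tendsto (fun N => volume (C N) ^ 2) atTop (𝓝 (volume (⋂ N, C N) ^ 2)) :=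
    ((ENNReal.continuous_pow 2).tendsto _).comp (tendsto_measure_iInter_atTop
      (fun N => (hclosed N).measurableSet.nullMeasurableSet) hanti
      ⟨0, hbdd.measure_lt_top.ne⟩)
  exact (ge_of_tendsto' htend hfin).trans (pow_le_pow_left₀ zero_le (measure_mono hsub) 2)

end Vale.Agent.P227
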