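import Vale.Agent.P227.Planar

/-!
Induction on the dimension: if both bodies are invariant under the reflection in the last
coordinate, the slices of the geometric mean body contain the geometric mean of the slices, and a
multiplicative Prékopa–Leindler inequality on the half line gives the inequality.
-/

noncomputable section

namespace Vale.Agent.P227

open Set Matrix MeasureTheory
open scoped ENNReal

variable {n : ℕ}

/-- Invariance under the sign changes of the coordinates with index at least two. -/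
def Flips (K : Set (Fin n → ℝ)) : Prop :=
  ∀ i : Fin n, 2 ≤ i.val → ∀ x ∈ K, Function.update x i (-x i) ∈ K

/-- The slice at height `t`. -/
def sl (K : Set (Fin (n + 1) → ℝ)) (t : ℝ) : Set (Fin n → ℝ) := {z | Fin.snoc z t ∈ K}

theorem dot_snoc (v z : Fin n → ℝ) (r t : ℝ) :
    (Fin.snoc v r : Fin (n + 1) → ℝ) ⬝ᵥ Fin.snoc z t = v ⬝ᵥ z + r * t := by
  simp [dotProduct, Fin.sum_univ_castSucc]

theorem continuous_snoc (t : ℝ) :
    Continuous fun z : Fin n → ℝ => (Fin.snoc z t : Fin (n + 1) → ℝ) := by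
  refine continuous_pi fun i => ?_
  refine Fin.lastCases ?_ (fun j => ?_) i
  · simp only [Fin.snoc_last]; exact continuous_const
  · simp only [Fin.snoc_castSucc]; exact continuous_apply j

theorem measurableSet_split {S : Set (Fin (n + 1) → ℝ)} (hS : MeasurableSet S) :
    MeasurableSet ((MeasurableEquiv.piFinSuccAbove (fun _ : Fin (n + 1) => ℝ) (Fin.last n)).symm ⁻¹'
      S) :=
  (MeasurableEquiv.piFinSuccAbove (fun _ : Fin (n + 1) => ℝ) (Fin.last n)).symm.measurable hS

theorem split_slice (S : Set (Fin (n + 1) → ℝ)) (t : ℝ) :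
    Prod.mk t ⁻¹' ((MeasurableEquiv.piFinSuccAbove (fun _ : Fin (n + 1) => ℝ) (Fin.last n)).symm ⁻¹'
      S) = sl S t := by
  ext z
  simp [sl, MeasurableEquiv.piFinSuccAbove_symm_apply, Fin.snocEquiv]

theorem volume_eq_lintegral_sl {S : Set (Fin (n + 1) → ℝ)} (hS : MeasurableSet S) :
    volume S = ∫⁻ t, volume (sl S t) := by
  have e := (volume_preserving_piFinSuccAbove (fun _ : Fin (n + 1) => ℝ) (Fin.last n)).symm
  rw [← e.measure_preimage hS.nullMeasurableSet, Measure.volume_eq_prod,
    Measure.prod_apply (measurableSet_split hS)]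
  exact lintegral_congr fun t => by rw [split_slice]

theorem measurable_sl {S : Set (Fin (n + 1) → ℝ)} (hS : MeasurableSet S) :
    Measurable fun t => volume (sl S t) := by
  have := measurable_measure_prodMk_left (ν := (volume : Measure (Fin n → ℝ)))
    (measurableSet_split hS)
  simpa only [split_slice] using this

theorem volume_eq_two_mul {S : Set (Fin (n + 1) → ℝ)} (hS : MeasurableSet S)
    (heven : ∀ t, sl S (-t) = sl S t) :
    volume S = 2 * ∫⁻ s, ENNReal.ofReal (Real.exp s) * volume (sl S (Real.exp s)) := by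
  have hexp : ∫⁻ t in Ioi 0, volume (sl S t) =
      ∫⁻ s, ENNReal.ofReal (Real.exp s) * volume (sl S (Real.exp s)) := by
    rw [← Real.range_exp, ← image_univ, lintegral_image_eq_lintegral_abs_deriv_mul MeasurableSet.univ
      (fun x _ => (Real.hasDerivAt_exp x).hasDerivWithinAt) Real.exp_injective.injOn,
      setLIntegral_univ]
    simp [abs_of_pos (Real.exp_pos _)]
  have hneg : ∫⁻ t in Iio 0, volume (sl S t) = ∫⁻ t in Ioi 0, volume (sl S t) := by
    have h := (Measure.measurePreserving_neg (volume : Measure ℝ)).setLIntegral_comp_preimage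
      (measurableSet_Iio (a := (0:ℝ))) (measurable_sl hS)
    rw [← h]
    simp [heven]
  rw [volume_eq_lintegral_sl hS, ← hexp, two_mul]
  nth_rewrite 2 [← hneg]
  rw [← setLIntegral_univ, ← Iio_union_Ici (a := (0:ℝ)),
    lintegral_union measurableSet_Ici (Iio_disjoint_Ici le_rfl),
    setLIntegral_congr Ioi_ae_eq_Ici.symm, add_comm, hneg]

variable {K L : Set (Fin (n + 1) → ℝ)}

/-- Invariance under the reflection in the last coordinate. -/
def LastFlip (K : Set (Fin (n + 1) → ℝ)) : Prop :=
  ∀ (z : Fin n → ℝ) (t : ℝ), Fin.snoc z t ∈ K → Fin.snoc z (-t) ∈ K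

theorem LastFlip.sl_neg (h : LastFlip K) (t : ℝ) : sl K (-t) = sl K t := by
  ext z
  exact ⟨fun hz => by have := h z (-t) hz; rw [neg_neg] at this; exact this, fun hz => h z t hz⟩

theorem Body.supp_flip (hK : Body K) (h : LastFlip K) (v : Fin n → ℝ) (r : ℝ) :
    supp K (Fin.snoc v (-r)) = supp K (Fin.snoc v r) := by
  have key : ∀ r, supp K (Fin.snoc v (-r)) ≤ supp K (Fin.snoc v r) := fun r =>
    hK.supp_le fun x hx => by
      obtain ⟨z, t, rfl⟩ : ∃ z t, x = Fin.snoc z t := ⟨Fin.init x, x (Fin.last n),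
        (Fin.snoc_init_self x).symm⟩
      have := hK.le_supp (h z t hx) (Fin.snoc v r)
      rw [dot_snoc] at this ⊢
      linarith
  exact le_antisymm (key r) (by simpa using key (-r))

theorem geo_sl_neg (hK : Body K) (hL : Body L) (fK : LastFlip K) (fL : LastFlip L) (t : ℝ) :
    sl (geo K L) (-t) = sl (geo K L) t := by
  have key : ∀ t, sl (geo K L) t ⊆ sl (geo K L) (-t) := by
    intro t z hz u
    obtain ⟨v, r, rfl⟩ : ∃ v r, u = Fin.snoc v r := ⟨Fin.init u, u (Fin.last n),
      (Fin.snoc_init_self u).symm⟩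
    have := hz (Fin.snoc v (-r))
    rw [hK.supp_flip fK, hL.supp_flip fL, dot_snoc] at this
    rw [dot_snoc]
    simpa using this
  exact Subset.antisymm (by simpa using key (-t)) (key t)

theorem Body.sl (hK : Body K) (h : LastFlip K) {t : ℝ} (hne : (sl K t).Nonempty) :
    Body (sl K t) where
  comp := by
    have hc : IsClosed (Vale.Agent.P227.sl K t) := hK.comp.isClosed.preimage (continuous_snoc t)
    refine (hK.comp.image (continuous_pi fun i : Fin n => continuous_apply i.castSucc)).of_isClosed_subset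
      hc fun z hz => ⟨_, hz, ?_⟩
    funext i
    simp
  conv := by
    intro x hx y hy a b ha hb hab
    have := hK.conv hx hy ha hb hab
    show Fin.snoc (a • x + b • y) t ∈ K
    convert this using 1
    funext i
    refine Fin.lastCases ?_ (fun j => ?_) i
    · simp [← add_mul, hab]
    · simp
  symm := by
    intro z hz
    have := hK.symm _ (h z t hz)
    show Fin.snoc (-z) t ∈ K
    convert this using 1
    funext i
    refine Fin.lastCases ?_ (fun j => ?_) i <;> simp
  ne := hne

theorem Flips.sl (h : Flips K) (t : ℝ) : Flips (sl K t) := by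
  intro i hi z hz
  have := h i.castSucc (by simpa using hi) _ hz
  show Fin.snoc (Function.update z i (-z i)) t ∈ K
  rwa [Fin.snoc_update, ← Fin.snoc_castSucc (α := fun _ => ℝ) t z i]

theorem supp_sl_add_le (hK : Body K) (h : LastFlip K) {a : ℝ}
    (hne : (sl K a).Nonempty) (v : Fin n → ℝ) (r : ℝ) :
    supp (sl K a) v + |r| * a ≤ supp K (Fin.snoc v r) := by
  obtain ⟨z, hz, hzv⟩ := (hK.sl h hne).exists_supp_eq v
  rcases le_total 0 r with hr | hr
  · have := hK.le_supp hz (Fin.snoc v r)
    rw [dot_snoc, hzv] at this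
    rwa [abs_of_nonneg hr]
  · have := hK.le_supp (h z a hz) (Fin.snoc v r)
    rw [dot_snoc, hzv] at this
    rw [abs_of_nonpos hr]
    linarith

theorem geo_sl_subset (hK : Body K) (hL : Body L) (fK : LastFlip K) (fL : LastFlip L) {a b : ℝ}
    (ha : 0 ≤ a) (hb : 0 ≤ b) (hKa : (sl K a).Nonempty) (hLb : (sl L b).Nonempty) :
    geo (sl K a) (sl L b) ⊆ sl (geo K L) (Real.sqrt (a * b)) := by
  intro z hz u
  obtain ⟨v, r, rfl⟩ : ∃ v r, u = Fin.snoc v r := ⟨Fin.init u, u (Fin.last n),
    (Fin.snoc_init_self u).symm⟩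
  rw [dot_snoc]
  set h0 := supp (sl K a) v
  set h1 := supp (sl L b) v
  have hh0 : 0 ≤ h0 := (hK.sl fK hKa).supp_nonneg v
  have hh1 : 0 ≤ h1 := (hL.sl fL hLb).supp_nonneg v
  have e1 := supp_sl_add_le hK fK hKa v r
  have e2 := supp_sl_add_le hL fL hLb v r
  have hm : Real.sqrt (a * b) ^ 2 = a * b := Real.sq_sqrt (mul_nonneg ha hb)
  have hz' : (v ⬝ᵥ z) ^ 2 ≤ h0 * h1 := hz v
  have hra : 0 ≤ |r| * a := mul_nonneg (abs_nonneg r) ha
  have hrb : 0 ≤ |r| * b := mul_nonneg (abs_nonneg r) hb
  have hcs : 2 * ((v ⬝ᵥ z) * (r * Real.sqrt (a * b))) ≤ h0 * (|r| * b) + |r| * a * h1 := by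
    refine le_trans (le_abs_self _) (abs_le_of_sq_le_sq ?_ (by positivity))
    have : (2 * ((v ⬝ᵥ z) * (r * Real.sqrt (a * b)))) ^ 2 ≤ 4 * (h0 * h1) * (r ^ 2 * (a * b)) := by
      rw [mul_pow, mul_pow, mul_pow, hm]
      nlinarith [mul_le_mul_of_nonneg_right hz' (mul_nonneg (sq_nonneg r) (mul_nonneg ha hb))]
    have e : 4 * (h0 * h1) * (r ^ 2 * (a * b)) = 4 * ((h0 * (|r| * b)) * (|r| * a * h1)) := by
      rw [← sq_abs r]; ring
    rw [e] at this
    linarith [four_mul_le_sq_add (h0 * (|r| * b)) (|r| * a * h1),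
      mul_assoc 4 (h0 * (|r| * b)) (|r| * a * h1)]
  calc (v ⬝ᵥ z + r * Real.sqrt (a * b)) ^ 2
      = (v ⬝ᵥ z) ^ 2 + 2 * ((v ⬝ᵥ z) * (r * Real.sqrt (a * b))) + |r| * a * (|r| * b) := by
        rw [add_sq, mul_pow, hm, ← sq_abs r]; ring
    _ ≤ (h0 + |r| * a) * (h1 + |r| * b) := by nlinarith
    _ ≤ supp K (Fin.snoc v r) * supp L (Fin.snoc v r) :=
        mul_le_mul e1 e2 (by linarith) (hK.supp_nonneg _)

theorem step (ih : ∀ {P Q : Set (Fin n → ℝ)}, Body P → Body Q → Flips P → Flips Q →
      volume P * volume Q ≤ volume (geo P Q) ^ 2)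
    (hK : Body K) (hL : Body L) (gK : Flips K) (gL : Flips L) (fK : LastFlip K) (fL : LastFlip L) :
    volume K * volume L ≤ volume (geo K L) ^ 2 := by
  have hmK := hK.comp.measurableSet
  have hmL := hL.comp.measurableSet
  have hmG : MeasurableSet (geo K L) := (geo_closed K L).measurableSet
  rw [volume_eq_two_mul hmK fK.sl_neg, volume_eq_two_mul hmL fL.sl_neg,
    volume_eq_two_mul hmG (geo_sl_neg hK hL fK fL), mul_mul_mul_comm, mul_pow, ← sq]
  refine mul_le_mul' le_rfl (Vale.Agent.P047.pl_midpoint_one ?_ ?_ ?_ fun x y => ?_)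
  · exact (Real.measurable_exp.ennreal_ofReal).mul ((measurable_sl hmK).comp Real.measurable_exp)
  · exact (Real.measurable_exp.ennreal_ofReal).mul ((measurable_sl hmL).comp Real.measurable_exp)
  · exact (Real.measurable_exp.ennreal_ofReal).mul ((measurable_sl hmG).comp Real.measurable_exp)
  have hmid : Real.exp ((x + y) / 2) = Real.sqrt (Real.exp x * Real.exp y) := by
    rw [← Real.exp_add, Real.exp_half]
  rw [mul_mul_mul_comm, mul_pow, ← ENNReal.ofReal_pow (Real.exp_pos _).le,
    ← ENNReal.ofReal_mul (Real.exp_pos _).le, hmid, Real.sq_sqrt (by positivity)]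
  refine mul_le_mul' le_rfl ?_
  rcases eq_empty_or_nonempty (sl K (Real.exp x)) with h | h
  · simp [h]
  rcases eq_empty_or_nonempty (sl L (Real.exp y)) with h' | h'
  · simp [h']
  exact (ih (hK.sl fK h) (hL.sl fL h') (gK.sl _) (gL.sl _)).trans
    (pow_le_pow_left₀ zero_le (measure_mono
      (geo_sl_subset hK hL fK fL (Real.exp_pos _).le (Real.exp_pos _).le h h')) 2)

/-- Midpoint inequality for bodies with `n - 2` common reflections. -/
theorem midpoint : ∀ {n : ℕ} {K L : Set (Fin n → ℝ)}, Body K → Body L → Flips K → Flips L →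
    volume K * volume L ≤ volume (geo K L) ^ 2 := by
  intro n
  induction n with
  | zero =>
    intro K L hK hL _ _
    have hd : ∀ S : Set (Fin 0 → ℝ), S.Nonempty → volume S = 1 := fun S hS => by
      rw [Subsingleton.eq_univ_of_nonempty hS]; simp [volume_pi]
    rw [hd K hK.ne, hd L hL.ne, hd (geo K L) ⟨0, fun u => by
      simpa using mul_nonneg (hK.supp_nonneg u) (hL.supp_nonneg u)⟩]
    simp
  | succ n ih =>
    intro K L hK hL gK gL
    rcases Nat.lt_trichotomy n 1 with h | h | h
    · obtain rfl : n = 0 := by omega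
      have hf : ∀ {S : Set (Fin 1 → ℝ)}, Body S → LastFlip S := fun hS z t hz => by
        have := hS.symm _ hz
        convert this using 1
        funext i
        refine Fin.lastCases ?_ (fun j => j.elim0) i
        simp [Fin.snoc]
      exact step ih hK hL gK gL (hf hK) (hf hL)
    · subst h
      exact planar_midpoint hK hL
    · have hf : ∀ {S : Set (Fin (n + 1) → ℝ)}, Flips S → LastFlip S := fun hS z t hz => by
        have := hS (Fin.last n) (by simp; omega) _ hz
        rwa [Fin.snoc_last, Fin.update_snoc_last] at this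
      exact step ih hK hL gK gL (hf gK) (hf gL)

end Vale.Agent.P227
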