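import Vale.Agent.P227.Step

/-!
All exponents, by dyadic bisection and upper semicontinuity of the volume, and bodies which become
invariant under sign changes after a linear change of variables.
-/

noncomputable section

namespace Vale.Agent.P227

open Set Matrix MeasureTheory Filter Topology
open scoped ENNReal

variable {n : ℕ}

/-- The logarithmic combination. -/
def logC (K L : Set (Fin n → ℝ)) (l : ℝ) : Set (Fin n → ℝ) :=
  {x | ∀ u, u ⬝ᵥ x ≤ supp K u ^ (1 - l) * supp L u ^ l}

variable {K L : Set (Fin n → ℝ)}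

theorem logC_closed (K L : Set (Fin n → ℝ)) (l : ℝ) : IsClosed (logC K L l) := by
  simp only [logC, Set.ofPred_forall]
  exact isClosed_iInter fun u => isClosed_le (continuous_dot u) continuous_const

theorem weighted_nonneg (hK : Body K) (hL : Body L) (l : ℝ) (u : Fin n → ℝ) :
    0 ≤ supp K u ^ (1 - l) * supp L u ^ l :=
  mul_nonneg (Real.rpow_nonneg (hK.supp_nonneg u) _) (Real.rpow_nonneg (hL.supp_nonneg u) _)

theorem weighted_le (hK : Body K) (hL : Body L) {l : ℝ} (hl : l ∈ Icc (0:ℝ) 1) (u : Fin n → ℝ) :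
    supp K u ^ (1 - l) * supp L u ^ l ≤ supp K u + supp L u := by
  obtain ⟨h0, h1⟩ := hl
  refine (Real.geom_mean_le_arith_mean2_weighted (by linarith) h0 (hK.supp_nonneg u)
    (hL.supp_nonneg u) (by ring)).trans ?_
  nlinarith [hK.supp_nonneg u, hL.supp_nonneg u]

theorem abs_le_of_mem (hK : Body K) (hL : Body L) {l : ℝ} {x : Fin n → ℝ}
    (hx : x ∈ logC K L l) (u : Fin n → ℝ) : |u ⬝ᵥ x| ≤ supp K u ^ (1 - l) * supp L u ^ l := by
  refine abs_le'.2 ⟨hx u, ?_⟩
  have := hx (-u)
  rwa [hK.supp_neg, hL.supp_neg, neg_dotProduct] at this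

/-- A box containing all logarithmic combinations. -/
def box (K L : Set (Fin n → ℝ)) : Set (Fin n → ℝ) :=
  Set.univ.pi fun i => Icc (-(supp K (Pi.single i 1) + supp L (Pi.single i 1)))
    (supp K (Pi.single i 1) + supp L (Pi.single i 1))

theorem logC_subset_box (hK : Body K) (hL : Body L) {l : ℝ} (hl : l ∈ Icc (0:ℝ) 1) :
    logC K L l ⊆ box K L := by
  intro x hx i _
  have := (abs_le_of_mem hK hL hx (Pi.single i 1)).trans (weighted_le hK hL hl _)
  rw [single_dotProduct, one_mul] at this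
  exact abs_le.1 this

theorem body_logC (hK : Body K) (hL : Body L) {l : ℝ} (hl : l ∈ Icc (0:ℝ) 1) :
    Body (logC K L l) where
  comp := (isCompact_univ_pi fun _ => isCompact_Icc).of_isClosed_subset (logC_closed K L l)
    (logC_subset_box hK hL hl)
  conv := by
    intro x hx y hy a b ha hb hab u
    rw [dotProduct_add, dotProduct_smul, dotProduct_smul, smul_eq_mul, smul_eq_mul]
    have e : a * (supp K u ^ (1 - l) * supp L u ^ l) + b * (supp K u ^ (1 - l) * supp L u ^ l) =
        supp K u ^ (1 - l) * supp L u ^ l := by rw [← add_mul, hab, one_mul]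
    linarith [mul_le_mul_of_nonneg_left (hx u) ha, mul_le_mul_of_nonneg_left (hy u) hb]
  symm := fun x hx u => by
    rw [dotProduct_neg]
    exact (neg_le_abs _).trans (abs_le_of_mem hK hL hx u)
  ne := ⟨0, fun u => by rw [dotProduct_zero]; exact weighted_nonneg hK hL l u⟩

theorem dot_update_neg (u x : Fin n → ℝ) (i : Fin n) :
    u ⬝ᵥ Function.update x i (-x i) = Function.update u i (-u i) ⬝ᵥ x := by
  refine Finset.sum_congr rfl fun j _ => ?_
  rcases eq_or_ne j i with rfl | h
  · simp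
  · simp [h]

theorem supp_update_neg (hK : Body K) (h : Flips K) {i : Fin n} (hi : 2 ≤ i.val)
    (u : Fin n → ℝ) : supp K (Function.update u i (-u i)) = supp K u := by
  have key : ∀ u, supp K (Function.update u i (-u i)) ≤ supp K u := fun u =>
    hK.supp_le fun x hx => by
      rw [← dot_update_neg]
      exact hK.le_supp (h i hi x hx) u
  refine le_antisymm (key u) ?_
  have := key (Function.update u i (-u i))
  rwa [Function.update_self, Function.update_idem, neg_neg, Function.update_eq_self] at this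

theorem flips_logC (hK : Body K) (hL : Body L) (fK : Flips K) (fL : Flips L) (l : ℝ) :
    Flips (logC K L l) := by
  intro i hi x hx u
  rw [dot_update_neg, ← supp_update_neg hK fK hi u, ← supp_update_neg hL fL hi u]
  exact hx _

theorem rpow_combine {a : ℝ} (ha : 0 ≤ a) {s t m : ℝ} (hs : 0 ≤ s) (ht : 0 ≤ t)
    (h : s + t = 2 * m) : a ^ s * a ^ t = (a ^ m) ^ 2 := by
  rw [← Real.rpow_add_of_nonneg ha hs ht, h, mul_comm, Real.rpow_mul ha, Real.rpow_two]

theorem geo_logC_subset (hK : Body K) (hL : Body L) {a b : ℝ} (ha : a ∈ Icc (0:ℝ) 1)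
    (hb : b ∈ Icc (0:ℝ) 1) :
    geo (logC K L a) (logC K L b) ⊆ logC K L ((a + b) / 2) := by
  intro x hx u
  have hle : ∀ {c : ℝ}, c ∈ Icc (0:ℝ) 1 → supp (logC K L c) u ≤ supp K u ^ (1 - c) * supp L u ^ c :=
    fun hc => (body_logC hK hL hc).supp_le fun y hy => hy u
  have h1 : (u ⬝ᵥ x) ^ 2 ≤
      (supp K u ^ (1 - (a + b) / 2) * supp L u ^ ((a + b) / 2)) ^ 2 := by
    refine (hx u).trans ((mul_le_mul (hle ha) (hle hb) ((body_logC hK hL hb).supp_nonneg u)
      (weighted_nonneg hK hL a u)).trans_eq ?_)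
    rw [mul_mul_mul_comm, mul_pow,
      rpow_combine (hK.supp_nonneg u) (sub_nonneg.2 ha.2) (sub_nonneg.2 hb.2)
        (m := 1 - (a + b) / 2) (by ring),
      rpow_combine (hL.supp_nonneg u) ha.1 hb.1 (m := (a + b) / 2) (by ring)]
  exact le_of_abs_le (abs_le_of_sq_le_sq h1 (weighted_nonneg hK hL _ u))

/-- The dyadic exponents. -/
theorem dyadic (hK : Body K) (hL : Body L) (fK : Flips K) (fL : Flips L) :
    ∀ k j : ℕ, j ≤ 2 ^ k → (volume K).toReal ^ (1 - (j:ℝ) / 2 ^ k) *
      (volume L).toReal ^ ((j:ℝ) / 2 ^ k) ≤ (volume (logC K L ((j:ℝ) / 2 ^ k))).toReal := by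
  have hmem : ∀ {k j : ℕ}, j ≤ 2 ^ k → ((j:ℝ) / 2 ^ k) ∈ Icc (0:ℝ) 1 := fun {k j} hj =>
    ⟨by positivity, (div_le_one (by positivity)).2 (by exact_mod_cast hj)⟩
  intro k
  induction k with
  | zero =>
    intro j hj
    have hj' : j = 0 ∨ j = 1 := by simpa using Nat.le_one_iff_eq_zero_or_eq_one.1 hj
    rcases hj' with rfl | rfl
    · have hsub : K ⊆ logC K L 0 := fun x hx u => by simpa using hK.le_supp hx u
      simpa using ENNReal.toReal_mono (body_logC hK hL ⟨le_rfl, zero_le_one⟩).comp.measure_lt_top.ne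
        (measure_mono hsub)
    · have hsub : L ⊆ logC K L 1 := fun x hx u => by simpa using hL.le_supp hx u
      simpa using ENNReal.toReal_mono (body_logC hK hL ⟨zero_le_one, le_rfl⟩).comp.measure_lt_top.ne
        (measure_mono hsub)
  | succ k ih =>
    intro j hj
    rcases Nat.even_or_odd' j with ⟨i, rfl | rfl⟩
    · have e : ((2 * i : ℕ) : ℝ) / 2 ^ (k + 1) = (i : ℝ) / 2 ^ k := by
        push_cast; rw [pow_succ]; field_simp
      rw [e]
      exact ih i (by rw [pow_succ] at hj; omega)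
    · have hi : i + 1 ≤ 2 ^ k := by rw [pow_succ] at hj; omega
      set a := (i : ℝ) / 2 ^ k with had
      set b := ((i + 1 : ℕ) : ℝ) / 2 ^ k with hbd
      have ha : a ∈ Icc (0:ℝ) 1 := hmem (by omega)
      have hb : b ∈ Icc (0:ℝ) 1 := hmem hi
      have e : ((2 * i + 1 : ℕ) : ℝ) / 2 ^ (k + 1) = (a + b) / 2 := by
        rw [had, hbd]; push_cast; rw [pow_succ]; field_simp; ring
      rw [e]
      have hmid : (a + b) / 2 ∈ Icc (0:ℝ) 1 :=
        ⟨by linarith [ha.1, hb.1], by linarith [ha.2, hb.2]⟩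
      have h := (midpoint (body_logC hK hL ha) (body_logC hK hL hb) (flips_logC hK hL fK fL a)
        (flips_logC hK hL fK fL b)).trans
        (pow_le_pow_left₀ zero_le (measure_mono (geo_logC_subset hK hL ha hb)) 2)
      have h' := ENNReal.toReal_mono
        (ENNReal.pow_ne_top (body_logC hK hL hmid).comp.measure_lt_top.ne) h
      rw [ENNReal.toReal_mul, ENNReal.toReal_pow] at h'
      have hX : 0 ≤ (volume K).toReal := ENNReal.toReal_nonneg
      have hY : 0 ≤ (volume L).toReal := ENNReal.toReal_nonneg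
      refine (pow_le_pow_iff_left₀ (mul_nonneg (Real.rpow_nonneg hX _) (Real.rpow_nonneg hY _))
        ENNReal.toReal_nonneg two_ne_zero).1 (le_trans (le_of_eq ?_) ((mul_le_mul (ih i (by omega))
        (ih (i + 1) hi) (mul_nonneg (Real.rpow_nonneg hX _) (Real.rpow_nonneg hY _))
        ENNReal.toReal_nonneg).trans h'))
      rw [← had, ← hbd, mul_mul_mul_comm, mul_pow,
        rpow_combine hX (sub_nonneg.2 ha.2) (sub_nonneg.2 hb.2) (m := 1 - (a + b) / 2) (by ring),
        rpow_combine hY ha.1 hb.1 (m := (a + b) / 2) (by ring)]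

/-- The inequality for all exponents. -/
theorem weighted (hK : Body K) (hL : Body L) (hK0 : K ∈ nhds 0) (hL0 : L ∈ nhds 0)
    (fK : Flips K) (fL : Flips L) {l : ℝ} (hl : l ∈ Icc (0:ℝ) 1) :
    (volume K).toReal ^ (1 - l) * (volume L).toReal ^ l ≤ (volume (logC K L l)).toReal := by
  set q : ℕ → ℕ := fun k => ⌊l * 2 ^ k⌋₊ with hq
  set t : ℕ → ℝ := fun k => (q k : ℝ) / 2 ^ k with ht
  have hqle : ∀ k, q k ≤ 2 ^ k := fun k =>
    Nat.floor_le_of_le (by push_cast; exact mul_le_of_le_one_left (by positivity) hl.2)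
  have htm : ∀ k, t k ∈ Icc (0:ℝ) 1 := fun k =>
    ⟨by positivity, (div_le_one (by positivity)).2 (by exact_mod_cast hqle k)⟩
  have htl : Tendsto t atTop (𝓝 l) := by
    have hlo : ∀ k, l - (1/2 : ℝ) ^ k ≤ t k := fun k => by
      rw [ht, le_div_iff₀ (by positivity), sub_mul, ← mul_pow]
      have := Nat.lt_floor_add_one (l * 2 ^ k)
      norm_num
      linarith
    have hhi : ∀ k, t k ≤ l := fun k => (div_le_iff₀ (by positivity)).2
      (Nat.floor_le (mul_nonneg hl.1 (by positivity)))
    refine tendsto_of_tendsto_of_tendsto_of_le_of_le ?_ tendsto_const_nhds hlo hhi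
    simpa using tendsto_const_nhds.sub
      (tendsto_pow_atTop_nhds_zero_of_lt_one (by norm_num : (0:ℝ) ≤ 1/2) (by norm_num))
  set U : ℕ → Set (Fin n → ℝ) := fun N => ⋃ k ≥ N, logC K L (t k) with hU
  have hUbox : ∀ N, U N ⊆ box K L := fun N =>
    iUnion₂_subset fun k _ => logC_subset_box hK hL (htm k)
  have hboxfin : volume (box K L) ≠ ⊤ :=
    (isCompact_univ_pi fun _ => isCompact_Icc).measure_lt_top.ne
  have hsub : ⋂ N, U N ⊆ logC K L l := by
    intro x hx u
    rcases eq_or_ne u 0 with rfl | hu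
    · rw [zero_dotProduct]; exact weighted_nonneg hK hL l 0
    have hfr : ∃ᶠ k in atTop, u ⬝ᵥ x ≤ supp K u ^ (1 - t k) * supp L u ^ t k :=
      frequently_atTop.2 fun N => by
        obtain ⟨k, hk, hxk⟩ := mem_iUnion₂.1 (mem_iInter.1 hx N)
        exact ⟨k, hk, hxk u⟩
    have hc : Tendsto (fun k => supp K u ^ (1 - t k) * supp L u ^ t k) atTop
        (𝓝 (supp K u ^ (1 - l) * supp L u ^ l)) :=
      ((tendsto_const_nhds.rpow (tendsto_const_nhds.sub htl) (.inl (hK.supp_pos hK0 hu).ne'))).mul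
        (tendsto_const_nhds.rpow htl (.inl (hL.supp_pos hL0 hu).ne'))
    exact ge_of_tendsto_of_frequently hc hfr
  have hlim : Tendsto (fun N => (volume (U N)).toReal) atTop
      (𝓝 (volume (⋂ N, U N)).toReal) := by
    refine (ENNReal.tendsto_toReal ?_).comp (tendsto_measure_iInter_atTop
      (fun N => (MeasurableSet.iUnion fun k => MeasurableSet.iUnion fun _ =>
        (logC_closed K L (t k)).measurableSet).nullMeasurableSet)
      (fun i j hij => biUnion_subset_biUnion_left fun k (hk : k ≥ j) => le_trans hij hk)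
      ⟨0, ne_top_of_le_ne_top hboxfin (measure_mono (hUbox 0))⟩)
    exact ne_top_of_le_ne_top hboxfin (measure_mono ((iInter_subset U 0).trans (hUbox 0)))
  have hKpos : 0 < (volume K).toReal := ENNReal.toReal_pos
    (Measure.measure_pos_of_mem_nhds volume hK0).ne' hK.comp.measure_lt_top.ne
  have hLpos : 0 < (volume L).toReal := ENNReal.toReal_pos
    (Measure.measure_pos_of_mem_nhds volume hL0).ne' hL.comp.measure_lt_top.ne
  have hrhs : Tendsto (fun N => (volume K).toReal ^ (1 - t N) * (volume L).toReal ^ t N) atTop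
      (𝓝 ((volume K).toReal ^ (1 - l) * (volume L).toReal ^ l)) :=
    (tendsto_const_nhds.rpow (tendsto_const_nhds.sub htl) (.inl hKpos.ne')).mul
      (tendsto_const_nhds.rpow htl (.inl hLpos.ne'))
  refine (le_of_tendsto_of_tendsto' hrhs hlim fun N => ?_).trans
    (ENNReal.toReal_mono (body_logC hK hL hl).comp.measure_lt_top.ne (measure_mono hsub))
  exact (dyadic hK hL fK fL N (q N) (hqle N)).trans (ENNReal.toReal_mono
    (ne_top_of_le_ne_top hboxfin (measure_mono (hUbox N)))
    (measure_mono (subset_iUnion₂_of_subset N (le_refl N) Subset.rfl)))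

/-- Invariance up to a linear change of variables. -/
theorem weighted_linear (hK : Body K) (hL : Body L) (hK0 : K ∈ nhds 0) (hL0 : L ∈ nhds 0)
    (M : Matrix (Fin n) (Fin n) ℝ) (hM : M.det ≠ 0)
    (fK : Flips ((fun x => M *ᵥ x) '' K)) (fL : Flips ((fun x => M *ᵥ x) '' L))
    {l : ℝ} (hl : l ∈ Icc (0:ℝ) 1) :
    (volume K).toReal ^ (1 - l) * (volume L).toReal ^ l ≤ (volume (logC K L l)).toReal := by
  have hKv : volume K ≠ 0 := (Measure.measure_pos_of_mem_nhds volume hK0).ne'
  have hLv : volume L ≠ 0 := (Measure.measure_pos_of_mem_nhds volume hL0).ne'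
  have hd : ENNReal.ofReal |M.det| ≠ 0 := by simpa using hM
  have hmK := (hK.image M).mem_nhds (by rw [volume_image_mulVec]; exact mul_ne_zero hd hKv)
  have hmL := (hL.image M).mem_nhds (by rw [volume_image_mulVec]; exact mul_ne_zero hd hLv)
  have h := weighted (hK.image M) (hL.image M) hmK hmL fK fL hl
  have hsub : logC ((fun x => M *ᵥ x) '' K) ((fun x => M *ᵥ x) '' L) l ⊆
      (fun x => M *ᵥ x) '' logC K L l := by
    intro y hy
    have hu : IsUnit M.det := isUnit_iff_ne_zero.2 hM
    refine ⟨M⁻¹ *ᵥ y, fun v => ?_, by simp [Matrix.mulVec_mulVec, Matrix.mul_nonsing_inv _ hu]⟩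
    have := hy (v ᵥ* M⁻¹)
    rw [hK.supp_image, hL.supp_image, Matrix.vecMul_vecMul, Matrix.nonsing_inv_mul _ hu,
      Matrix.vecMul_one, ← dotProduct_mulVec] at this
    exact this
  have hfin : volume ((fun x => M *ᵥ x) '' logC K L l) ≠ ⊤ :=
    ((body_logC hK hL hl).image M).comp.measure_lt_top.ne
  have h2 := h.trans (ENNReal.toReal_mono hfin (measure_mono hsub))
  simp only [volume_image_mulVec, ENNReal.toReal_mul, ENNReal.toReal_ofReal (abs_nonneg M.det)]
    at h2
  have hd0 : 0 < |M.det| := abs_pos.2 hM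
  rw [Real.mul_rpow hd0.le ENNReal.toReal_nonneg, Real.mul_rpow hd0.le ENNReal.toReal_nonneg,
    mul_mul_mul_comm, ← Real.rpow_add hd0, sub_add_cancel, Real.rpow_one] at h2
  exact le_of_mul_le_mul_left h2 hd0

end Vale.Agent.P227
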