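import Vale.Agent.P227.Area

/-!
Linear changes of variables, zonogons and the Bonnesen inequality for two planar bodies with one
common support value.
-/

noncomputable section

namespace Vale.Agent.P227

open Set Matrix MeasureTheory Pointwise
open scoped ENNReal

variable {n : ℕ} {K L : Set (Fin n → ℝ)}

theorem Body.image (h : Body K) (M : Matrix (Fin n) (Fin n) ℝ) :
    Body ((fun x => M *ᵥ x) '' K) where
  comp := h.comp.image (Continuous.matrix_mulVec continuous_const continuous_id)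
  conv := h.conv.linear_image (Matrix.mulVecLin M)
  symm := by rintro _ ⟨x, hx, rfl⟩; exact ⟨-x, h.symm x hx, Matrix.mulVec_neg _ _⟩
  ne := h.ne.image _

theorem Body.supp_image (h : Body K) (M : Matrix (Fin n) (Fin n) ℝ) (u : Fin n → ℝ) :
    supp ((fun x => M *ᵥ x) '' K) u = supp K (u ᵥ* M) := by
  rw [supp, supp, image_image]
  simp_rw [dotProduct_mulVec]

theorem volume_image_mulVec (M : Matrix (Fin n) (Fin n) ℝ) (S : Set (Fin n → ℝ)) :
    volume ((fun x => M *ᵥ x) '' S) = ENNReal.ofReal |M.det| * volume S := by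
  have := Measure.addHaar_image_linearMap (volume : Measure (Fin n → ℝ)) (Matrix.toLin' M) S
  rw [LinearMap.det_toLin'] at this
  exact this

theorem Body.add (h : Body K) (h' : Body L) : Body (K + L) where
  comp := h.comp.add h'.comp
  conv := h.conv.add h'.conv
  symm := by
    rintro _ ⟨x, hx, y, hy, rfl⟩
    exact ⟨-x, h.symm x hx, -y, h'.symm y hy, by simp [add_comm]⟩
  ne := h.ne.add h'.ne

theorem Body.supp_add (h : Body K) (h' : Body L) (u : Fin n → ℝ) :
    supp (K + L) u = supp K u + supp L u := by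
  refine le_antisymm ((h.add h').supp_le ?_) ?_
  · rintro _ ⟨x, hx, y, hy, rfl⟩
    rw [dotProduct_add]
    exact add_le_add (h.le_supp hx u) (h'.le_supp hy u)
  · obtain ⟨x, hx, hxu⟩ := h.exists_supp_eq u
    obtain ⟨y, hy, hyu⟩ := h'.exists_supp_eq u
    rw [← hxu, ← hyu, ← dotProduct_add]
    exact (h.add h').le_supp (add_mem_add hx hy) u

theorem body_zero : Body (0 : Set (Fin n → ℝ)) where
  comp := isCompact_singleton
  conv := convex_singleton 0
  symm := by intro x hx; simp only [Set.mem_zero] at hx ⊢; simp [hx]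
  ne := ⟨0, rfl⟩

/-- The segment from `-a` to `a`. -/
def seg (a : Fin n → ℝ) : Set (Fin n → ℝ) := (fun t : ℝ => t • a) '' Icc (-1) 1

theorem body_seg (a : Fin n → ℝ) : Body (seg a) where
  comp := isCompact_Icc.image (continuous_id.smul continuous_const)
  conv := (convex_Icc (-1 : ℝ) 1).linear_image (LinearMap.toSpanSingleton ℝ (Fin n → ℝ) a)
  symm := by
    rintro _ ⟨t, ⟨h1, h2⟩, rfl⟩
    exact ⟨-t, ⟨by linarith, by linarith⟩, by simp⟩
  ne := ⟨0, 0, by simp, zero_smul _ _⟩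

theorem supp_seg (a u : Fin n → ℝ) : supp (seg a) u = |u ⬝ᵥ a| := by
  refine le_antisymm ((body_seg a).supp_le ?_) ?_
  · rintro _ ⟨t, ⟨h1, h2⟩, rfl⟩
    rw [dotProduct_smul, smul_eq_mul]
    refine (le_abs_self _).trans ?_
    rw [abs_mul]
    exact mul_le_of_le_one_left (abs_nonneg _) (abs_le.2 ⟨h1, h2⟩)
  · have h1 : a ∈ seg a := ⟨1, by simp, one_smul _ _⟩
    exact (body_seg a).abs_le_supp h1 u

variable {ι : Type*}

theorem body_sum (s : Finset ι) (a : ι → Fin n → ℝ) : Body (∑ i ∈ s, seg (a i)) := by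
  classical
  induction s using Finset.induction with
  | empty => simpa using body_zero
  | insert k s hk ih => rw [Finset.sum_insert hk]; exact (body_seg _).add ih

theorem supp_sum (s : Finset ι) (a : ι → Fin n → ℝ) (u : Fin n → ℝ) :
    supp (∑ i ∈ s, seg (a i)) u = ∑ i ∈ s, |u ⬝ᵥ a i| := by
  classical
  induction s using Finset.induction with
  | empty =>
    refine le_antisymm ?_ ?_
    · simp only [Finset.sum_empty]
      exact body_zero.supp_le fun x hx => by simp [Set.mem_zero.1 hx]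
    · simpa using body_zero.supp_nonneg u
  | insert k s hk ih =>
    rw [Finset.sum_insert hk, (body_seg _).supp_add (body_sum s a), supp_seg, ih,
      Finset.sum_insert hk]

theorem image_smul_seg (a : Fin n → ℝ) (c : ℝ) :
    (fun x : Fin n → ℝ => c • x) '' seg a = seg (c • a) := by
  rw [seg, seg, image_image]
  refine image_congr fun t _ => ?_
  rw [smul_comm]

theorem image_smul_sum (s : Finset ι) (a : ι → Fin n → ℝ) (c : ℝ) :
    (fun x : Fin n → ℝ => c • x) '' (∑ i ∈ s, seg (a i)) = ∑ i ∈ s, seg (c • a i) := by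
  classical
  induction s using Finset.induction with
  | empty => simp [Set.image_singleton, ← Set.singleton_zero]
  | insert k s hk ih =>
    rw [Finset.sum_insert hk, Finset.sum_insert hk, ← ih, ← image_smul_seg]
    exact Set.image_add (DistribSMul.toAddMonoidHom (Fin n → ℝ) c)

/-- The normal of a planar vector. -/
def nrm (a : Fin 2 → ℝ) : Fin 2 → ℝ := ![-a 1, a 0]

theorem nrm_dot (a x : Fin 2 → ℝ) : nrm a ⬝ᵥ x = a 0 * x 1 - a 1 * x 0 := by
  simp [nrm, dotProduct, Fin.sum_univ_two]; ring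

theorem nrm_smul (c : ℝ) (a : Fin 2 → ℝ) : nrm (c • a) = c • nrm a := by
  ext i; fin_cases i <;> simp [nrm]

theorem nrm_ne_zero {a : Fin 2 → ℝ} (ha : a ≠ 0) : nrm a ≠ 0 := fun h => ha <| by
  have h0 := congrFun h 0
  have h1 := congrFun h 1
  simp [nrm] at h0 h1
  ext i; fin_cases i <;> simp [h0, h1]

theorem abs_nrm_dot_comm (a b : Fin 2 → ℝ) : |nrm a ⬝ᵥ b| = |nrm b ⬝ᵥ a| := by
  rw [nrm_dot, nrm_dot, ← abs_neg]
  ring_nf

/-- A matrix of determinant one sending a nonzero vector to the first basis vector. -/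
theorem exists_straighten {a : Fin 2 → ℝ} (ha : a ≠ 0) :
    ∃ M N : Matrix (Fin 2) (Fin 2) ℝ, M.det = 1 ∧ N.det = 1 ∧ M * N = 1 ∧ N * M = 1 ∧
      M *ᵥ a = ![1, 0] ∧ ![0, 1] ᵥ* M = nrm a := by
  have hq : a 0 ^ 2 + a 1 ^ 2 ≠ 0 := by
    intro h
    refine ha (funext fun i => ?_)
    fin_cases i <;> simp <;> nlinarith [sq_nonneg (a 0), sq_nonneg (a 1)]
  set q := a 0 ^ 2 + a 1 ^ 2 with hqd
  refine ⟨!![a 0 / q, a 1 / q; -a 1, a 0], !![a 0, -(a 1 / q); a 1, a 0 / q], ?_, ?_, ?_, ?_,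
    ?_, ?_⟩
  · rw [Matrix.det_fin_two_of]; field_simp; rw [hqd]; ring
  · rw [Matrix.det_fin_two_of]; field_simp; rw [hqd]; ring
  · ext i j
    fin_cases i <;> fin_cases j <;> simp [Matrix.mul_apply, Fin.sum_univ_two] <;> field_simp <;>
      (try rw [hqd]) <;> ring
  · ext i j
    fin_cases i <;> fin_cases j <;> simp [Matrix.mul_apply, Fin.sum_univ_two] <;> field_simp <;>
      (try rw [hqd]) <;> ring
  · ext i
    fin_cases i <;> simp [Matrix.mulVec, dotProduct, Fin.sum_univ_two] <;> field_simp <;>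
      (try rw [hqd]) <;> ring
  · ext i
    fin_cases i <;> simp [nrm, Matrix.vecMul, dotProduct, Fin.sum_univ_two]

/-- Adding a segment. -/
theorem volume_add_seg {X : Set (Fin 2 → ℝ)} (hX : Body X) (a : Fin 2 → ℝ) :
    volume (X + seg a) = volume X + ENNReal.ofReal (4 * supp X (nrm a)) := by
  rcases eq_or_ne a 0 with rfl | ha
  · have h0 : seg (0 : Fin 2 → ℝ) = 0 := by
      rw [seg, ← Set.singleton_zero]
      simp
    have h1 : nrm (0 : Fin 2 → ℝ) = (0 : ℝ) • (0 : Fin 2 → ℝ) := by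
      ext i; fin_cases i <;> simp [nrm]
    rw [h0, add_zero, h1, hX.supp_smul le_rfl]
    simp
  obtain ⟨M, N, hM, hN, hMN, hNM, hMa, hMv⟩ := exists_straighten ha
  have himg : (fun x => M *ᵥ x) '' (X + seg a) = (fun x => M *ᵥ x) '' X + seg0 := by
    rw [show (fun x => M *ᵥ x) = ⇑(Matrix.mulVecLin M) from rfl, Set.image_add]
    congr 1
    rw [seg, seg0, image_image]
    refine image_congr fun t _ => ?_
    show M *ᵥ (t • a) = _
    rw [Matrix.mulVec_smul, hMa]
    simp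
  have h := volume_add_seg0 (hX.image M)
  rw [← himg, volume_image_mulVec, volume_image_mulVec, hX.supp_image, hMv, hM] at h
  simpa using h

/-- The area of a body plus a zonogon. -/
theorem volume_add_sum {X : Set (Fin 2 → ℝ)} (hX : Body X) (s : Finset ι)
    (a : ι → Fin 2 → ℝ) :
    volume (X + ∑ i ∈ s, seg (a i)) = volume X + ENNReal.ofReal
      (4 * ∑ i ∈ s, supp X (nrm (a i)) + 2 * ∑ i ∈ s, ∑ j ∈ s, |nrm (a i) ⬝ᵥ a j|) := by
  classical
  induction s using Finset.induction generalizing X with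
  | empty => simp
  | insert k s hk ih =>
    have h0 : |nrm (a k) ⬝ᵥ a k| = 0 := by rw [nrm_dot]; simp [mul_comm]
    have hsym : ∑ i ∈ s, |nrm (a i) ⬝ᵥ a k| = ∑ i ∈ s, |nrm (a k) ⬝ᵥ a i| :=
      Finset.sum_congr rfl fun i _ => abs_nrm_dot_comm _ _
    have hnn : 0 ≤ ∑ i ∈ s, |nrm (a k) ⬝ᵥ a i| := Finset.sum_nonneg fun i _ => abs_nonneg _
    have hnn2 : 0 ≤ ∑ i ∈ s, ∑ j ∈ s, |nrm (a i) ⬝ᵥ a j| :=
      Finset.sum_nonneg fun i _ => Finset.sum_nonneg fun j _ => abs_nonneg _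
    have hnn3 : 0 ≤ ∑ i ∈ s, supp X (nrm (a i)) := Finset.sum_nonneg fun i _ => hX.supp_nonneg _
    rw [Finset.sum_insert hk, ← add_assoc, ih (hX.add (body_seg _)), volume_add_seg hX, add_assoc,
      ← ENNReal.ofReal_add (by linarith [hX.supp_nonneg (nrm (a k))]) ?_]
    · congr 2
      simp only [hX.supp_add (body_seg _), supp_seg, Finset.sum_add_distrib, Finset.sum_insert hk,
        h0, hsym]
      ring
    · simp only [hX.supp_add (body_seg _), supp_seg, Finset.sum_add_distrib, hsym]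
      linarith

theorem volume_sum (s : Finset ι) (a : ι → Fin 2 → ℝ) :
    volume (∑ i ∈ s, seg (a i)) =
      ENNReal.ofReal (2 * ∑ i ∈ s, ∑ j ∈ s, |nrm (a i) ⬝ᵥ a j|) := by
  have h := volume_add_sum (X := (0 : Set (Fin 2 → ℝ))) body_zero s a
  have h0 : ∀ u, supp (0 : Set (Fin 2 → ℝ)) u = 0 := fun u => by
    simpa using supp_sum (∅ : Finset ι) a u
  rw [zero_add] at h
  have hv : volume (0 : Set (Fin 2 → ℝ)) = 0 := by rw [← Set.singleton_zero]; simp
  rw [hv, zero_add] at h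
  simp only [h0, Finset.sum_const_zero, mul_zero, zero_add] at h
  exact h

theorem Body.mem_nhds (h : Body K) (hv : volume K ≠ 0) : K ∈ nhds (0 : Fin n → ℝ) := by
  rcases eq_empty_or_nonempty (interior K) with he | ⟨x, hx⟩
  · refine absurd (measure_mono_null ?_ (h.conv.addHaar_frontier volume)) hv
    intro y hy
    rw [frontier, he, sdiff_empty]
    exact subset_closure hy
  · have := h.conv.combo_interior_self_mem_interior hx (h.symm x (interior_subset hx))
      (by norm_num : (0:ℝ) < 1/2) (by norm_num : (0:ℝ) ≤ 1/2) (by norm_num)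
    rw [mem_interior_iff_mem_nhds] at this
    simpa using this

theorem exists_common_boundary {P Q : Set (Fin 2 → ℝ)} (hP : Body P) (hQ : Body Q)
    (hP0 : P ∈ nhds 0) (hQ0 : Q ∈ nhds 0) {v : Fin 2 → ℝ} (hv : v ≠ 0)
    (he : supp P v = supp Q v) :
    ∃ e : Fin 2 → ℝ, e ≠ 0 ∧ e ∈ P ∧ e ∈ Q ∧
      (∀ t : ℝ, t • e ∈ P → t ≤ 1) ∧ ∀ t : ℝ, t • e ∈ Q → t ≤ 1 := by
  have key : ∀ {A B : Set (Fin 2 → ℝ)}, Body A → Body B → A ∈ nhds 0 → B ∈ nhds 0 →
      supp A v = supp B v → ∃ x, x ≠ 0 ∧ gauge A x ≤ gauge B x := by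
    intro A B hA hB hA0 hB0 hAB
    obtain ⟨x, hx, hxv⟩ := hA.exists_supp_eq v
    have hpos := hA.supp_pos hA0 hv
    have hx0 : x ≠ 0 := fun h => by simp [h] at hxv; linarith
    refine ⟨x, hx0, (gauge_le_one_of_mem hx).trans (not_lt.1 fun hlt => ?_)⟩
    have hg : 0 < gauge B x := (gauge_pos (absorbent_nhds_zero hB0)
      ((NormedSpace.isVonNBounded_iff ℝ).2 hB.comp.isBounded)).2 hx0
    have hmem : (gauge B x)⁻¹ • x ∈ B := by
      have h1 : gauge B ((gauge B x)⁻¹ • x) ≤ 1 := by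
        rw [gauge_smul_of_nonneg (inv_nonneg.2 hg.le), smul_eq_mul, inv_mul_cancel₀ hg.ne']
      rwa [gauge_le_one_iff_mem_closure hB.conv hB0, hB.comp.isClosed.closure_eq] at h1
    have h2 := hB.le_supp hmem v
    rw [dotProduct_smul, smul_eq_mul, hxv, ← hAB] at h2
    have h3 : 1 < (gauge B x)⁻¹ := (one_lt_inv₀ hg).2 hlt
    nlinarith
  obtain ⟨x, hx, hxg⟩ := key hP hQ hP0 hQ0 he
  obtain ⟨y, hy, hyg⟩ := key hQ hP hQ0 hP0 he.symm
  have hconn : IsPreconnected ({0}ᶜ : Set (Fin 2 → ℝ)) :=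
    (isPathConnected_compl_singleton_of_one_lt_rank (by simp) 0).isConnected.isPreconnected
  obtain ⟨z, hz, hzg⟩ := hconn.intermediate_value₂ hx hy
    (continuous_gauge hP.conv hP0).continuousOn (continuous_gauge hQ.conv hQ0).continuousOn hxg hyg
  have hg : 0 < gauge P z :=
    (gauge_pos (absorbent_nhds_zero hP0) ((NormedSpace.isVonNBounded_iff ℝ).2 hP.comp.isBounded)).2 hz
  set e := (gauge P z)⁻¹ • z with hed
  have heP : gauge P e = 1 := by
    rw [hed, gauge_smul_of_nonneg (inv_nonneg.2 hg.le), smul_eq_mul, inv_mul_cancel₀ hg.ne']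
  have heQ : gauge Q e = 1 := by
    rw [hed, gauge_smul_of_nonneg (inv_nonneg.2 hg.le), smul_eq_mul, ← hzg, inv_mul_cancel₀ hg.ne']
  have main : ∀ {A : Set (Fin 2 → ℝ)}, Body A → A ∈ nhds 0 → gauge A e = 1 →
      e ∈ A ∧ ∀ t : ℝ, t • e ∈ A → t ≤ 1 := by
    intro A hA hA0 h1
    refine ⟨?_, fun t ht => ?_⟩
    · have := h1.le
      rwa [gauge_le_one_iff_mem_closure hA.conv hA0, hA.comp.isClosed.closure_eq] at this
    · rcases le_or_gt t 0 with h | h
      · linarith
      · have := gauge_le_one_of_mem ht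
        rwa [gauge_smul_of_nonneg h.le, h1, smul_eq_mul, mul_one] at this
  refine ⟨e, smul_ne_zero (inv_ne_zero hg.ne') hz, (main hP hP0 heP).1, (main hQ hQ0 heQ).1,
    (main hP hP0 heP).2, (main hQ hQ0 heQ).2⟩

/-- Bonnesen for two bodies with one common support value. -/
theorem two_mul_add_le {P Q : Set (Fin 2 → ℝ)} (hP : Body P) (hQ : Body Q)
    (hP0 : P ∈ nhds 0) (hQ0 : Q ∈ nhds 0) {v : Fin 2 → ℝ} (hv : v ≠ 0)
    (he : supp P v = supp Q v) : 2 * (volume P + volume Q) ≤ volume (P + Q) := by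
  obtain ⟨e, he0, heP, heQ, hmP, hmQ⟩ := exists_common_boundary hP hQ hP0 hQ0 hv he
  obtain ⟨M, N, hM, hN, hMN, hNM, hMe, -⟩ := exists_straighten he0
  have hm : ∀ {A : Set (Fin 2 → ℝ)}, (∀ t : ℝ, t • e ∈ A → t ≤ 1) →
      ∀ t, ![t, 0] ∈ (fun x => M *ᵥ x) '' A → t ≤ 1 := by
    rintro A hA t ⟨x, hx, hxt⟩
    refine hA t ?_
    have h2 : x = N *ᵥ ![t, 0] := by
      rw [← hxt, Matrix.mulVec_mulVec, hNM, Matrix.one_mulVec]
    have h3 : t • e = N *ᵥ ![t, 0] := by
      rw [show (![t, 0] : Fin 2 → ℝ) = t • ![1, 0] by simp, ← hMe, Matrix.mulVec_smul,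
        Matrix.mulVec_mulVec, hNM, Matrix.one_mulVec]
    rwa [h3, ← h2]
  have h := two_mul_add_le_volume_add (hP.image M) (hQ.image M) (r := 1)
    ⟨e, heP, hMe⟩ ⟨e, heQ, hMe⟩ (hm hmP) (hm hmQ)
  have himg : (fun x => M *ᵥ x) '' P + (fun x => M *ᵥ x) '' Q = (fun x => M *ᵥ x) '' (P + Q) := by
    rw [show (fun x => M *ᵥ x) = ⇑(Matrix.mulVecLin M) from rfl, Set.image_add]
  rw [himg, volume_image_mulVec, volume_image_mulVec, volume_image_mulVec, hM] at h
  simpa using h

end Vale.Agent.P227
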